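import Vale.Agent.P254.Z546.Main

/-!
P248 / P254, equality case, block B4, part a (helper551): the minimum principle keeps the term
`∑ w (β i)`.
-/

namespace Vale.Agent.P248.H551

open Matrix Filter Topology Set
open Vale.Agent.P254.L Vale.Agent.P254.Z546

variable {n : ℕ}

/-- the minimum principle, before the passage to the limit `ε → 0` -/
theorem GG_ge {F : Profile} (W : WProfile F) {D : TiltData n} (E : EntData D) (hn : 0 < n)
    (hP : ∀ B : Mat n, B.PosDef → ∀ c : Vec n, PIneq F (D.A B c) B (D.T B c))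
    {B : Mat n} (hB : B.PosDef) (c : Vec n) {ε : ℝ} (hε : 0 < ε) {η : ℝ} (hη : 0 < η) :
    -η ≤ GG E W ε B c := by
  by_contra hlt
  push Not at hlt
  set q0 : ℝ := Real.sqrt W.cmin with hq0
  have hq0p : 0 < q0 := Real.sqrt_pos.2 W.cmin_pos
  set Λ : ℝ := max q0 ((2 * (W.w1max * Real.sqrt W.cmax) + 1) / ε) with hΛ
  have hΛq : q0 ≤ Λ := le_max_left _ _
  have hΛ0 : 0 < Λ := hq0p.trans_le hΛq
  have hΛ2 : 2 * (W.w1max * Real.sqrt W.cmax) < ε * Λ := by
    have h1 : (2 * (W.w1max * Real.sqrt W.cmax) + 1) / ε ≤ Λ := le_max_right _ _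
    rw [div_le_iff₀ hε] at h1
    linarith
  obtain ⟨B', c', hB', -, hc', hf'⟩ := exists_min E W hε.le hη hq0p hΛq hB hlt
  obtain ⟨L, β, hF⟩ := exists_Fr (D.posA B' hB'.posSemidef c') hB'.isHermitian
  have hβ : ∀ i, β i ∈ Ioo (0 : ℝ) 1 := hF.beta_mem hB' c'
  set r : Vec n := fun i => min (rr W (β i)) Λ with hr
  have hr0 : ∀ i, q0 ≤ r i := fun i => le_min (rr_ge W (hβ i)) hΛq
  have hrΛ : ∀ i, r i ≤ Λ := fun i => min_le_right _ _
  have hf'' := hf' (Lᵀ * Matrix.diagonal r * L) (by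
      have e : Lᵀ * Matrix.diagonal r * L - q0 • (D.A B' c')⁻¹
          = Lᵀ * Matrix.diagonal (fun i => r i - q0) * L := by
        have e1 : (Matrix.diagonal fun i => r i - q0 : Mat n)
            = Matrix.diagonal r - q0 • (1 : Mat n) := by
          rw [Matrix.smul_one_eq_diagonal, Matrix.diagonal_sub]
        rw [e1, Matrix.mul_sub, Matrix.sub_mul, Matrix.mul_smul, Matrix.mul_one,
          Matrix.smul_mul, ← hF.inv_A]
      rw [e, psd_conj_iff hF.isUnit, Matrix.posSemidef_diagonal_iff]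
      exact fun i => sub_nonneg.2 (hr0 i)) (by
      have e : Λ • (D.A B' c')⁻¹ - Lᵀ * Matrix.diagonal r * L
          = Lᵀ * Matrix.diagonal (fun i => Λ - r i) * L := by
        have e1 : (Matrix.diagonal fun i => Λ - r i : Mat n)
            = Λ • (1 : Mat n) - Matrix.diagonal r := by
          rw [Matrix.smul_one_eq_diagonal, Matrix.diagonal_sub]
        rw [e1, Matrix.mul_sub, Matrix.sub_mul, Matrix.mul_smul, Matrix.mul_one,
          Matrix.smul_mul, ← hF.inv_A]
      rw [e, psd_conj_iff hF.isUnit, Matrix.posSemidef_diagonal_iff]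
      exact fun i => sub_nonneg.2 (hrΛ i))
  have h1 := contact_ineq E W hB' hF (r := r) (fun i => hq0p.le.trans (hr0 i)) hc' hf''
  have h2 : NN (Matrix.diagonal fun i => rr W (β i)) (frT L (D.T B' c')) (frT L (D.T B' c'))
      ≤ ∑ i, (F.p (β i) * rr W (β i)) ^ 3 := by
    have h3 := hP B' hB' c' L (fun _ => 1) β hF.isUnit
      (by rw [hF.hA]; exact Matrix.diagonal_one.symm) hF.hB
      (Matrix.diagonal fun i => rr W (β i)) (by
        rw [Matrix.posSemidef_diagonal_iff]
        exact fun i => (rr_pos W (hβ i)).le)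
    refine h3.trans_eq ?_
    rw [Matrix.diagonal_mul_diagonal, Matrix.diagonal_pow, Matrix.trace_diagonal]
    refine Finset.sum_congr rfl fun i _ => ?_
    simp
  exact absurd h1 (not_le.2 (sum_neg W hn hε hΛ0 hΛ2 hβ h2))

/-- the entropy inequality with the extra term `∑ w (β i)`, `β` = eigenvalues of `BA` -/
theorem ent_ge_w {F : Profile} (W : WProfile F) {D : TiltData n} (E : EntData D)
    (hP : ∀ B : Mat n, B.PosDef → ∀ c : Vec n, PIneq F (D.A B c) B (D.T B c))
    {B : Mat n} (hB : B.PosDef) (c : Vec n) {L : Mat n} {β : Vec n} (hF : Fr (D.A B c) B L β) :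
    (n : ℝ) + 1 / 2 * Real.log (D.A B c).det + ∑ i, W.w (β i) ≤ E.Ent B c := by
  rcases Nat.eq_zero_or_pos n with hn | hn
  · subst hn
    have h := E.lowE B hB.posSemidef c
    simpa using h
  have hβ : ∀ i, β i ∈ Ioo (0 : ℝ) 1 := hF.beta_mem hB c
  have hs : ∑ i, Real.sqrt (1 - β i) ≤ n := by
    have : ∑ i, Real.sqrt (1 - β i) ≤ ∑ _i : Fin n, (1 : ℝ) := by
      refine Finset.sum_le_sum fun i _ => ?_
      rw [Real.sqrt_le_one]
      linarith [(hβ i).1]
    simpa using this
  refine le_of_forall_pos_le_add fun δ hδ => ?_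
  have h1 := GG_ge W E hn hP hB c (ε := δ / (2 * (n + 1))) (by positivity) (η := δ / 2)
    (by positivity)
  rw [GG_eq E W hB c hF] at h1
  have h2 : δ / (2 * (n + 1)) * ∑ i, Real.sqrt (1 - β i) ≤ δ / 2 := by
    calc δ / (2 * (n + 1)) * ∑ i, Real.sqrt (1 - β i) ≤ δ / (2 * (n + 1)) * n :=
          mul_le_mul_of_nonneg_left hs (by positivity)
      _ ≤ δ / (2 * (n + 1)) * (n + 1) := by
          refine mul_le_mul_of_nonneg_left (by linarith) (by positivity)
      _ = δ / 2 := by field_simp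
  linarith

end Vale.Agent.P248.H551
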