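import Vale.Agent.P248.H551.B4a
import Vale.Agent.P254.MP.Cube
import Vale.Agent.P254.S526.SFrame

/-!
P248 / P254, equality case, block B4, part b (helper551): inequality (P) and the entropy inequality
near `B = 0`, frame free.
-/

namespace Vale.Agent.P248.H551

open Matrix Filter Topology Set
open Vale.Agent.P254.L

variable {n : ℕ}

theorem psd_congr {M : Mat n} (hM : M.PosSemidef) (R : Mat n) : (Rᵀ * M * R).PosSemidef := by
  have := hM.conjTranspose_mul_mul_same R
  rwa [Matrix.conjTranspose_eq_transpose_of_trivial] at this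

theorem trace_mul_psd {X Y : Mat n} (hX : X.PosSemidef) (hY : Y.PosSemidef) :
    0 ≤ (X * Y).trace := by
  obtain ⟨R, rfl⟩ := Vale.Agent.P254.MP.cube_sqrt hY
  rw [← Matrix.mul_assoc, Matrix.trace_mul_comm, ← Matrix.mul_assoc]
  exact (psd_congr hX R).trace_nonneg

/-- monotonicity of `tr M³` -/
theorem trace_cube_mono {M N : Mat n} (hM : M.PosSemidef) (h : (N - M).PosSemidef) :
    (M ^ 3).trace ≤ (N ^ 3).trace := by
  set H : Mat n := N - M with hH
  have hN : N = M + H := by rw [hH]; abel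
  have e : (N ^ 3).trace = (M ^ 3).trace + 3 * (M ^ 2 * H).trace + 3 * (M * H ^ 2).trace +
      (H ^ 3).trace := by
    rw [hN]
    have e1 : (M + H) ^ 3 = M ^ 3 + (M * M * H + M * H * M + H * M * M) +
        (M * H * H + H * M * H + H * H * M) + H ^ 3 := by
      simp only [pow_succ, pow_zero, Matrix.one_mul, Matrix.add_mul, Matrix.mul_add]
      abel
    rw [e1]
    simp only [Matrix.trace_add]
    have t1 : (M * H * M).trace = (M * M * H).trace := by
      rw [Matrix.trace_mul_comm, ← Matrix.mul_assoc]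
    have t2 : (H * M * M).trace = (M * M * H).trace := by
      rw [Matrix.mul_assoc, Matrix.trace_mul_comm]
    have t3 : (H * M * H).trace = (M * H * H).trace := by
      rw [Matrix.mul_assoc, Matrix.trace_mul_comm]
    have t4 : (H * H * M).trace = (M * H * H).trace := by
      rw [Matrix.trace_mul_comm, ← Matrix.mul_assoc]
    rw [t1, t2, t3, t4]
    simp only [sq, Matrix.mul_assoc]
    ring
  have h1 := trace_mul_psd (hM.pow 2) h
  have h2 := trace_mul_psd hM (h.pow 2)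
  have h3 := (h.pow 3).trace_nonneg
  rw [e]
  linarith

theorem trace_cube_mono' {S S' P : Mat n} (hS : S.PosSemidef) (h : (S' - S).PosSemidef)
    (hP : P.PosSemidef) : ((S * P) ^ 3).trace ≤ ((S' * P) ^ 3).trace := by
  obtain ⟨R, rfl⟩ := Vale.Agent.P254.MP.cube_sqrt hP
  rw [Vale.Agent.P254.MP.cube_trace, Vale.Agent.P254.MP.cube_trace]
  refine trace_cube_mono (psd_congr hS R) ?_
  rw [← Matrix.sub_mul, ← Matrix.mul_sub]
  exact psd_congr h R

/-- `Sf f A B ≤ κ (A - γ A B A)` if `f ≤ κ (1 - γ x)` at the eigenvalues -/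
theorem Sf_le_lin {A B L : Mat n} {β : Vec n} (hAs : Aᵀ = A) (h : Fr A B L β) {f : ℝ → ℝ}
    {κ γ : ℝ} (hc : ∀ i, f (β i) ≤ κ * (1 - γ * β i)) :
    (κ • (A - γ • (A * B * A)) - Sf f A B).PosSemidef := by
  have e1 : A * B * A = (L * A)ᵀ * Matrix.diagonal β * (L * A) := by
    conv_lhs => rw [h.hB]
    rw [Matrix.transpose_mul, hAs]
    simp only [Matrix.mul_assoc]
  have e : κ • (A - γ • (A * B * A)) - Sf f A B
      = (L * A)ᵀ * (Matrix.diagonal fun i => κ * (1 - γ * β i) - f (β i)) * (L * A) := by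
    have h2 : (Matrix.diagonal fun i => κ * (1 - γ * β i) - f (β i))
        = κ • ((1 : Mat n) - γ • Matrix.diagonal β) - (Matrix.diagonal fun i => f (β i)) := by
      ext i j
      by_cases hij : i = j
      · subst hij
        simp
      · simp [hij]
    rw [h2, Matrix.mul_sub, Matrix.sub_mul, ← Sf_eq hAs h, Matrix.mul_smul, Matrix.smul_mul,
      Matrix.mul_sub, Matrix.sub_mul, Matrix.mul_one, h.gram hAs, Matrix.mul_smul, Matrix.smul_mul,
      ← e1]
  rw [e]
  exact psd_congr (posSemidef_diagonal_iff.2 fun i => sub_nonneg.2 (hc i)) _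

theorem Fr.trace_BA {A B L : Mat n} {β : Vec n} (h : Fr A B L β) :
    (B * A).trace = ∑ i, β i := by
  rw [h.BA, Matrix.trace_mul_comm, ← Matrix.mul_assoc, h.mul1, Matrix.one_mul,
    Matrix.trace_diagonal]

/-- `4^{1/3}` -/
noncomputable def kap : ℝ := (4 : ℝ) ^ (1 / 3 : ℝ)

theorem kap_pos : 0 < kap := Real.rpow_pos_of_pos (by norm_num) _

theorem kap_cube : kap ^ 3 = 4 := by
  unfold kap
  rw [← Real.rpow_natCast, ← Real.rpow_mul (by norm_num)]
  norm_num

/-- asymptotics of the profile at `0` -/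
def Prof0 (F : Profile) : Prop :=
  ∀ ε : ℝ, 0 < ε → ∃ δ : ℝ, 0 < δ ∧ δ ≤ 1 ∧ ∀ x ∈ Ioo (0 : ℝ) δ, F.p x ≤ kap * (1 - (2 - ε) * x)

/-- asymptotics of `w` at `0` -/
def W0 {F : Profile} (W : WProfile F) : Prop :=
  ∀ ε : ℝ, 0 < ε → ∃ δ : ℝ, 0 < δ ∧ δ ≤ 1 ∧ ∀ x ∈ Ioo (0 : ℝ) δ, (1 - ε) * x ≤ W.w x

theorem beta_lt {D : TiltData n} {B : Mat n} (hB : B.PosDef) {c : Vec n} {L : Mat n} {β : Vec n}
    (hF : Fr (D.A B c) B L β) {δ : ℝ} (h : (B * D.A B c).trace < δ) (i : Fin n) :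
    β i ∈ Ioo (0 : ℝ) δ := by
  have hβ := hF.beta_mem hB c
  refine ⟨(hβ i).1, lt_of_le_of_lt ?_ h⟩
  rw [Fr.trace_BA hF]
  exact Finset.single_le_sum (fun j _ => (hβ j).1.le) (Finset.mem_univ i)

/-- (P) for a nice measure with `tr (BA)` small -/
theorem P_nice {F : Profile} (hX : StX F) {δ γ : ℝ}
    (hp : ∀ x ∈ Ioo (0 : ℝ) δ, F.p x ≤ kap * (1 - γ * x)) (D : TiltData n) {B : Mat n}
    (hB : B.PosDef) (c : Vec n) (htr : (B * D.A B c).trace < δ) {P : Mat n} (hP : P.PosSemidef) :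
    NN P (D.T B c) (D.T B c) ≤
      4 * (((D.A B c - γ • (D.A B c * B * D.A B c)) * P) ^ 3).trace := by
  have hA := D.posA B hB.posSemidef c
  have hAs : (D.A B c)ᵀ = D.A B c := by
    have := hA.isHermitian.eq
    rwa [Matrix.conjTranspose_eq_transpose_of_trivial] at this
  obtain ⟨L, β, hF⟩ := exists_Fr hA hB.isHermitian
  have h1 := Vale.Agent.P254.S526.all_of_pIneq hA hB.isHermitian (hX n D B hB c) P hP
  refine h1.trans ?_
  have hβ1 := hF.beta_mem hB c
  have h2 := Sf_le_lin hAs hF (f := F.p) (κ := kap) (γ := γ)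
    fun i => hp _ (beta_lt hB hF htr i)
  have h3 : (Sf F.p (D.A B c) B).PosSemidef :=
    (Vale.Agent.P254.S526.Sf_posDef hAs hF fun i => F.pos _ (hβ1 i)).posSemidef
  refine (trace_cube_mono' h3 h2 hP).trans_eq ?_
  rw [Matrix.smul_mul, smul_pow, Matrix.trace_smul, kap_cube, smul_eq_mul]

/-- entropy inequality for a nice measure with `tr (BA)` small -/
theorem D_nice {F : Profile} (W : WProfile F) (hX : StX F) {δ ε : ℝ}
    (hw : ∀ x ∈ Ioo (0 : ℝ) δ, (1 - ε) * x ≤ W.w x) {D : TiltData n} (E : EntData D) {B : Mat n}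
    (hB : B.PosDef) (c : Vec n) (htr : (B * D.A B c).trace < δ) :
    (n : ℝ) + 1 / 2 * Real.log (D.A B c).det + (1 - ε) * (B * D.A B c).trace ≤ E.Ent B c := by
  obtain ⟨L, β, hF⟩ := exists_Fr (D.posA B hB.posSemidef c) hB.isHermitian
  have h1 := ent_ge_w W E (fun B hB c => hX n D B hB c) hB c hF
  have h2 : (1 - ε) * (B * D.A B c).trace ≤ ∑ i, W.w (β i) := by
    rw [Fr.trace_BA hF, Finset.mul_sum]
    exact Finset.sum_le_sum fun i _ => hw _ (beta_lt hB hF htr i)
  linarith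

end Vale.Agent.P248.H551
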