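import Vale.Agent.P248.H551.B4b
import Vale.Agent.P254.R304.Bridge
import Vale.Agent.P254.Frame829.Inst

/-!
P248 / P254, equality case, block B4, part c (helper551): the two inequalities pass to
`1_C exp (⟨c,x⟩ - ⟨x,Bx⟩/2)`, `C` closed convex.
-/

namespace Vale.Agent.P248.H551

open MeasureTheory Matrix Filter Topology Set
open Vale.Agent.P254.L Vale.Agent.P254.R304

variable {n : ℕ}

/-- third cumulants of a density -/
noncomputable def T3 (f : (Fin n → ℝ) → ℝ) : Ten n := fun i j k =>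
  Ef f (fun x => x i * x j * x k) - Ef f (fun x => x i * x j) * Ef f (fun x => x k)
    - (Ef f (fun x => x i * x k) - Ef f (fun x => x i) * Ef f (fun x => x k)) * Ef f (fun x => x j)
    - Ef f (fun x => x i) *
      (Ef f (fun x => x j * x k) - Ef f (fun x => x j) * Ef f (fun x => x k))

theorem T3_eq_TF (w : (Fin n → ℝ) → ℝ) (B : Matrix (Fin n) (Fin n) ℝ) (c : Fin n → ℝ) :
    T3 (fun x => tilt B c x * w x) = Vale.Agent.P254.Fr.TF w B c := by
  funext i j k
  unfold T3 Vale.Agent.P254.Fr.TF Vale.Agent.P254.Fr.c3 Vale.Agent.P254.Fr.c2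
  simp only [Ef_eq_Ev]
  rfl

theorem T3_smul {s : ℝ} (hs : s ≠ 0) (f : (Fin n → ℝ) → ℝ) :
    T3 (fun x => s * f x) = T3 f := by
  unfold T3
  simp only [Ef_smul hs]

theorem pg_coord3 (i j k : Fin n) : PolyGrowth (fun x : Fin n → ℝ => x i * x j * x k) :=
  (pg_coord2 i j).mul (pg_coord k)

variable {F : ℕ → (Fin n → ℝ) → ℝ} {G : (Fin n → ℝ) → ℝ} {M a : ℝ}

theorem tendsto_T3 (h : Dom F G M a) (hG : (∫ x, G x) ≠ 0) :
    Tendsto (fun k => T3 (F k)) atTop (𝓝 (T3 G)) := by
  refine tendsto_pi_nhds.2 fun i => tendsto_pi_nhds.2 fun j => tendsto_pi_nhds.2 fun k => ?_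
  have e3 := h.tendsto_Ef hG (pg_coord3 i j k)
  have e2 : ∀ i j, Tendsto (fun l => Ef (F l) fun x => x i * x j) atTop
      (𝓝 (Ef G fun x => x i * x j)) := fun i j => h.tendsto_Ef hG (pg_coord2 i j)
  have e1 : ∀ i, Tendsto (fun l => Ef (F l) fun x => x i) atTop (𝓝 (Ef G fun x => x i)) :=
    fun i => h.tendsto_Ef hG (pg_coord i)
  exact ((e3.sub ((e2 i j).mul (e1 k))).sub
    (((e2 i k).sub ((e1 i).mul (e1 k))).mul (e1 j))).sub
    ((e1 i).mul ((e2 j k).sub ((e1 j).mul (e1 k))))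

theorem continuous_NN (P : Mat n) : Continuous fun T : Ten n => NN P T T := by
  unfold NN N3
  fun_prop

theorem nice_eq_wK' (K : Set (Fin n → ℝ)) (ε m : ℝ) :
    nice K ε m = Vale.Agent.P254.Fr.wK K ε m := by
  funext x
  unfold nice Vale.Agent.P254.Fr.wK Vale.Agent.P254.R304.qq Vale.Agent.P254.Fr.gau
  congr 1
  refine integral_congr_ae (Filter.Eventually.of_forall fun y => ?_)
  simp only
  congr 1
  ring

section limit

variable {B : Matrix (Fin n) (Fin n) ℝ} {c : Fin n → ℝ} {C : Set (Fin n → ℝ)} {b : ℝ}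

/-- approximation of `limDens B c C` by nice measures, with all quantities -/
theorem exists_approx (hB : B.PosSemidef) (hC : IsClosed C) (hconv : Convex ℝ C)
    (hi : (interior C).Nonempty) {a b : ℝ} (ha : 0 < a) (hdec : ∀ y ∈ C, c ⬝ᵥ y ≤ b - a * ‖y‖) :
    ∃ (D : ℕ → TiltData n) (E : ∀ k, EntData (D k)) (Bk : ℕ → Mat n),
      (∀ k, (Bk k).PosDef) ∧ Tendsto Bk atTop (𝓝 B) ∧
      Tendsto (fun k => (D k).A (Bk k) c) atTop (𝓝 (covF (limDens B c C))) ∧
      Tendsto (fun k => (D k).T (Bk k) c) atTop (𝓝 (T3 (limDens B c C))) ∧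
      Tendsto (fun k => (E k).Ent (Bk k) c - 1 / 2 * Real.log ((D k).A (Bk k) c).det - n) atTop
        (𝓝 (DD (limDens B c C))) := by
  obtain ⟨K, s, M, hK1, hK2, hK3, hK4, hs, hs1, hs0, hdom⟩ := exists_dom hB hC hconv hi ha hdec
  have hgood := good_limDens hB hC hi ha hdec
  have hm := hgood.mass_pos.ne'
  have e1 : ∀ k, (fun x => tilt (B + (s k) • 1) c x * nice (K k) (s k) (s k) x) =
      fun x => GG n (s k) * dens B c (K k) (s k) (s k + s k) x := by
    intro k
    ext x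
    rw [dens_eq, mul_inv_cancel_left₀ (GG_pos (hs k)).ne']
  refine ⟨fun k => Vale.Agent.P254.Fr.tiltData (hK1 k) (hK2 k) (hK3 k) (hs k) (hs k),
    fun k => Vale.Agent.P254.Fr.entData (hK1 k) (hK2 k) (hK3 k) (hs k) (hs k),
    fun k => B + s k • 1, fun k => posDef_add_smul hB (hs k), ?_, ?_, ?_, ?_⟩
  · have : Tendsto (fun k => B + s k • (1 : Mat n)) atTop (𝓝 (B + (0 : ℝ) • (1 : Mat n))) :=
      tendsto_const_nhds.add (hs0.smul_const _)
    rwa [zero_smul, add_zero] at this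
  · have h2 : ∀ k, (Vale.Agent.P254.Fr.tiltData (hK1 k) (hK2 k) (hK3 k) (hs k) (hs k)).A
        (B + s k • 1) c = covF (dens B c (K k) (s k) (s k + s k)) := by
      intro k
      change Vale.Agent.P254.Fr.AF (Vale.Agent.P254.Fr.wK (K k) (s k) (s k)) (B + s k • 1) c = _
      rw [← nice_eq_wK', ← covF_eq_AF, e1 k, covF_smul (GG_pos (hs k)).ne']
    simp only [h2]
    exact hdom.tendsto_cov hm
  · have h2 : ∀ k, (Vale.Agent.P254.Fr.tiltData (hK1 k) (hK2 k) (hK3 k) (hs k) (hs k)).T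
        (B + s k • 1) c = T3 (dens B c (K k) (s k) (s k + s k)) := by
      intro k
      change Vale.Agent.P254.Fr.TF (Vale.Agent.P254.Fr.wK (K k) (s k) (s k)) (B + s k • 1) c = _
      rw [← nice_eq_wK', ← T3_eq_TF, e1 k, T3_smul (GG_pos (hs k)).ne']
    simp only [h2]
    exact tendsto_T3 hdom hm
  · have h2 : ∀ k, (Vale.Agent.P254.Fr.entData (hK1 k) (hK2 k) (hK3 k) (hs k) (hs k)).Ent
          (B + s k • 1) c - 1 / 2 * Real.log
            ((Vale.Agent.P254.Fr.tiltData (hK1 k) (hK2 k) (hK3 k) (hs k) (hs k)).A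
              (B + s k • 1) c).det - n = DD (dens B c (K k) (s k) (s k + s k)) := by
      intro k
      have h3 := DD_eq (nice_pos (hK3 k) (hs k) (s k)) (B + s k • 1) c
      have hg := good_dens hB hC (hi.mono interior_subset) ha hdec (hK1 k).measurableSet (hK3 k)
        (hK4 k) (hs k) (hs1 k) (t := s k + s k) (by have := hs k; linarith)
      rw [e1, DD_smul (GG_pos (hs k)) hg.int1 (ent_integrable a _ ha (by positivity) hg.meas
        hg.nn hg.le) hg.mass_pos.ne'] at h3
      rw [h3, nice_eq_wK']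
      rfl
    simp only [h2]
    exact hdom.tendsto_DD hm hgood.det_pos.ne'

/-- **(P) near `B = 0` for the limit densities** -/
theorem P_lim {F : Profile} (hX : StX F) {δ γ : ℝ}
    (hp : ∀ x ∈ Ioo (0 : ℝ) δ, F.p x ≤ kap * (1 - γ * x))
    (hB : B.PosSemidef) (hC : IsClosed C) (hconv : Convex ℝ C)
    (hi : (interior C).Nonempty) {a b : ℝ} (ha : 0 < a) (hdec : ∀ y ∈ C, c ⬝ᵥ y ≤ b - a * ‖y‖)
    (htr : (B * covF (limDens B c C)).trace < δ) {P : Mat n} (hP : P.PosSemidef) :
    NN P (T3 (limDens B c C)) (T3 (limDens B c C)) ≤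
      4 * (((covF (limDens B c C) -
        γ • (covF (limDens B c C) * B * covF (limDens B c C))) * P) ^ 3).trace := by
  obtain ⟨D, E, Bk, hBk, hBl, hAl, hTl, -⟩ := exists_approx hB hC hconv hi ha hdec
  have h1 : Tendsto (fun k => (Bk k * (D k).A (Bk k) c).trace) atTop
      (𝓝 (B * covF (limDens B c C)).trace) :=
    (Continuous.matrix_trace continuous_id).continuousAt.tendsto.comp (hBl.mul hAl)
  have h2 := h1.eventually_lt_const htr
  have h3 : Tendsto (fun k => NN P ((D k).T (Bk k) c) ((D k).T (Bk k) c)) atTop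
      (𝓝 (NN P (T3 (limDens B c C)) (T3 (limDens B c C)))) :=
    (continuous_NN P).continuousAt.tendsto.comp hTl
  have h4 : Tendsto (fun k => 4 * ((((D k).A (Bk k) c -
      γ • ((D k).A (Bk k) c * Bk k * (D k).A (Bk k) c)) * P) ^ 3).trace) atTop
      (𝓝 (4 * (((covF (limDens B c C) -
        γ • (covF (limDens B c C) * B * covF (limDens B c C))) * P) ^ 3).trace)) := by
    refine Tendsto.const_mul _ ?_
    refine (Continuous.matrix_trace continuous_id).continuousAt.tendsto.comp ?_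
    refine Tendsto.pow ?_ 3
    refine Tendsto.mul ?_ tendsto_const_nhds
    exact hAl.sub ((((hAl.mul hBl).mul hAl)).const_smul γ)
  refine le_of_tendsto_of_tendsto h3 h4 ?_
  filter_upwards [h2] with k hk
  exact P_nice hX hp (D k) (hBk k) c hk hP

/-- **the entropy inequality near `B = 0` for the limit densities** -/
theorem D_lim {F : Profile} (W : WProfile F) (hX : StX F) {δ ε : ℝ}
    (hw : ∀ x ∈ Ioo (0 : ℝ) δ, (1 - ε) * x ≤ W.w x)
    (hB : B.PosSemidef) (hC : IsClosed C) (hconv : Convex ℝ C)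
    (hi : (interior C).Nonempty) {a b : ℝ} (ha : 0 < a) (hdec : ∀ y ∈ C, c ⬝ᵥ y ≤ b - a * ‖y‖)
    (htr : (B * covF (limDens B c C)).trace < δ) :
    (1 - ε) * (B * covF (limDens B c C)).trace ≤ DD (limDens B c C) := by
  obtain ⟨D, E, Bk, hBk, hBl, hAl, -, hEl⟩ := exists_approx hB hC hconv hi ha hdec
  have h1 : Tendsto (fun k => (Bk k * (D k).A (Bk k) c).trace) atTop
      (𝓝 (B * covF (limDens B c C)).trace) :=
    (Continuous.matrix_trace continuous_id).continuousAt.tendsto.comp (hBl.mul hAl)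
  have h2 := h1.eventually_lt_const htr
  refine le_of_tendsto_of_tendsto (h1.const_mul (1 - ε)) hEl ?_
  filter_upwards [h2] with k hk
  have := D_nice W hX hw (E k) (hBk k) c hk
  linarith

end limit

end Vale.Agent.P248.H551
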