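import Vale.Agent.P248.H551.B4c

/-!
P248 / P254, equality case, block B4, part d (helper551): the two inequalities for the weight
`w = 1_C exp ⟨c₀,x⟩` in the notation of `Frame829` (`AF w B c`, `TF w B c`).
-/

namespace Vale.Agent.P248.H551

open MeasureTheory Matrix Filter Topology Set
open Vale.Agent.P254.L Vale.Agent.P254.R304
open Vale.Agent.P254.Fr (AF TF Ev I tl co muF)

variable {n : ℕ} {C : Set (Fin n → ℝ)} {c₀ c : Fin n → ℝ} {B : Matrix (Fin n) (Fin n) ℝ}

theorem tilt_add (B : Matrix (Fin n) (Fin n) ℝ) (c₀ c x : Fin n → ℝ) :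
    tilt B c x * tilt 0 c₀ x = tilt B (c₀ + c) x := by
  unfold tilt
  rw [← Real.exp_add]
  congr 1
  rw [zero_mulVec, dotProduct_zero, add_dotProduct]
  ring

/-- the tilts of `1_C exp ⟨c₀,x⟩` -/
theorem tilt_limDens (B : Matrix (Fin n) (Fin n) ℝ) (c₀ c : Fin n → ℝ) (C : Set (Fin n → ℝ)) :
    (fun x => tilt B c x * limDens 0 c₀ C x) = limDens B (c₀ + c) C := by
  funext x
  unfold limDens
  by_cases hx : x ∈ C
  · rw [indicator_of_mem hx, indicator_of_mem hx, tilt_add]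
  · rw [indicator_of_notMem hx, indicator_of_notMem hx, mul_zero]

theorem AF_limDens : AF (limDens 0 c₀ C) B c = covF (limDens B (c₀ + c) C) := by
  rw [← tilt_limDens, covF_eq_AF]

theorem TF_limDens : TF (limDens 0 c₀ C) B c = T3 (limDens B (c₀ + c) C) := by
  rw [← tilt_limDens, T3_eq_TF]

theorem Ev_limDens (φ : (Fin n → ℝ) → ℝ) :
    Ev (limDens 0 c₀ C) B c φ = Ef (limDens B (c₀ + c) C) φ := by
  rw [← tilt_limDens, Ef_eq_Ev]

theorem I_limDens (φ : (Fin n → ℝ) → ℝ) :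
    I (limDens 0 c₀ C) B c φ = ∫ x, φ x * limDens B (c₀ + c) C x := by
  rw [← tilt_limDens]
  rfl

/-- **block B4, inequality (P)**: for every `ε > 0` there is `δ > 0` such that (P) holds for all
tilts `(B, c)` of `1_C exp ⟨c₀,x⟩` with `tr (BA) < δ`, in the form
`⟨T,P³T⟩ ≤ 4 tr (((A - (2-ε) ABA) P)³)`. -/
theorem P_cone {F : Profile} (hX : StX F) (hp : Prof0 F) {ε : ℝ} (hε : 0 < ε) :
    ∃ δ : ℝ, 0 < δ ∧ ∀ (n : ℕ) (C : Set (Fin n → ℝ)) (c₀ c : Fin n → ℝ)
      (B : Matrix (Fin n) (Fin n) ℝ), B.PosSemidef → IsClosed C → Convex ℝ C →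
      (interior C).Nonempty → ∀ a b : ℝ, 0 < a → (∀ y ∈ C, (c₀ + c) ⬝ᵥ y ≤ b - a * ‖y‖) →
      (B * AF (limDens 0 c₀ C) B c).trace < δ → ∀ P : Matrix (Fin n) (Fin n) ℝ, P.PosSemidef →
      NN P (TF (limDens 0 c₀ C) B c) (TF (limDens 0 c₀ C) B c) ≤
        4 * (((AF (limDens 0 c₀ C) B c - (2 - ε) •
          (AF (limDens 0 c₀ C) B c * B * AF (limDens 0 c₀ C) B c)) * P) ^ 3).trace := by
  obtain ⟨δ, hδ, -, h⟩ := hp ε hε
  refine ⟨δ, hδ, fun n C c₀ c B hB hC hconv hi a b ha hdec htr P hP => ?_⟩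
  rw [AF_limDens] at htr ⊢
  rw [TF_limDens]
  exact P_lim hX h hB hC hconv hi ha hdec htr hP

/-- **block B4, entropy inequality**: `D ≥ (1 - ε) tr (BA)` if `tr (BA) < δ`. -/
theorem D_cone {F : Profile} (W : WProfile F) (hX : StX F) (hw : W0 W) {ε : ℝ} (hε : 0 < ε) :
    ∃ δ : ℝ, 0 < δ ∧ ∀ (n : ℕ) (C : Set (Fin n → ℝ)) (c₀ c : Fin n → ℝ)
      (B : Matrix (Fin n) (Fin n) ℝ), B.PosSemidef → IsClosed C → Convex ℝ C →
      (interior C).Nonempty → ∀ a b : ℝ, 0 < a → (∀ y ∈ C, (c₀ + c) ⬝ᵥ y ≤ b - a * ‖y‖) →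
      (B * AF (limDens 0 c₀ C) B c).trace < δ →
      (1 - ε) * (B * AF (limDens 0 c₀ C) B c).trace ≤ DD (limDens B (c₀ + c) C) := by
  obtain ⟨δ, hδ, -, h⟩ := hw ε hε
  refine ⟨δ, hδ, fun n C c₀ c B hB hC hconv hi a b ha hdec htr => ?_⟩
  rw [AF_limDens] at htr ⊢
  exact D_lim W hX h hB hC hconv hi ha hdec htr

/-- `D ≥ 0` for all the tilts -/
theorem D_cone_nonneg {F : Profile} (W : WProfile F) (hX : StX F) {n : ℕ}
    {C : Set (Fin n → ℝ)} {c₀ c : Fin n → ℝ}
    {B : Matrix (Fin n) (Fin n) ℝ} (hB : B.PosSemidef) (hC : IsClosed C) (hconv : Convex ℝ C)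
    (hi : (interior C).Nonempty) {a b : ℝ} (ha : 0 < a)
    (hdec : ∀ y ∈ C, (c₀ + c) ⬝ᵥ y ≤ b - a * ‖y‖) : 0 ≤ DD (limDens B (c₀ + c) C) := by
  obtain ⟨D, E, Bk, hBk, hBl, hAl, -, hEl⟩ := exists_approx hB hC hconv hi ha hdec
  refine ge_of_tendsto' hEl fun k => ?_
  have := Vale.Agent.P254.Z546.stZ F W hX n (D k) (E k) (Bk k) (hBk k) (c₀ + c)
  linarith

/-- explicit form of the entropy -/
theorem entF_limDens (hB : B.PosSemidef) (hC : IsClosed C)
    (hi : (interior C).Nonempty) {a b : ℝ} (ha : 0 < a)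
    (hdec : ∀ y ∈ C, c ⬝ᵥ y ≤ b - a * ‖y‖) :
    entF (limDens B c C) = Real.log (∫ x, limDens B c C x)
      - ∑ i, c i * Ef (limDens B c C) (fun x => x i)
      + 1 / 2 * ∑ i, ∑ j, B i j * Ef (limDens B c C) (fun x => x i * x j) := by
  have hg := good_limDens hB hC hi ha hdec
  have hm := hg.mass_pos
  unfold entF
  set f := limDens B c C with hf
  have e1 : ∀ x, f x * Real.log (f x) =
      (∑ i, c i * (x i * f x)) - ∑ i, ∑ j, (1 / 2 * B i j) * (x i * x j * f x) := by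
    intro x
    by_cases hx : x ∈ C
    · have e2 : f x = tilt B c x := by rw [hf, limDens, indicator_of_mem hx]
      have e3 : Real.log (f x) = c ⬝ᵥ x - (1 / 2) * (x ⬝ᵥ B *ᵥ x) := by
        rw [e2, tilt, Real.log_exp]
      rw [e3, mul_sub]
      congr 1
      · unfold dotProduct
        rw [Finset.mul_sum]
        exact Finset.sum_congr rfl fun i _ => by ring
      · unfold dotProduct mulVec dotProduct
        rw [Finset.mul_sum, Finset.mul_sum]
        refine Finset.sum_congr rfl fun i _ => ?_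
        rw [Finset.mul_sum, Finset.mul_sum, Finset.mul_sum]
        exact Finset.sum_congr rfl fun j _ => by ring
    · have e2 : f x = 0 := by rw [hf, limDens, indicator_of_notMem hx]
      simp [e2]
  have i1 : ∀ i, Integrable fun x : Fin n → ℝ => x i * f x := fun i => hg.int (pg_coord i)
  have i2 : ∀ i j, Integrable fun x : Fin n → ℝ => x i * x j * f x := fun i j =>
    hg.int (pg_coord2 i j)
  have e4 : (∫ x, f x * Real.log (f x)) = (∑ i, c i * ∫ x, x i * f x) -
      ∑ i, ∑ j, (1 / 2 * B i j) * ∫ x, x i * x j * f x := by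
    simp only [e1]
    rw [integral_sub, integral_finsetSum, integral_finsetSum]
    · congr 1
      · exact Finset.sum_congr rfl fun i _ => integral_const_mul _ _
      · refine Finset.sum_congr rfl fun i _ => ?_
        rw [integral_finsetSum]
        · exact Finset.sum_congr rfl fun j _ => integral_const_mul _ _
        · exact fun j _ => (i2 i j).const_mul _
    · exact fun i _ => integrable_finsetSum _ fun j _ => (i2 i j).const_mul _
    · exact fun i _ => (i1 i).const_mul _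
    · exact integrable_finsetSum _ fun i _ => (i1 i).const_mul _
    · exact integrable_finsetSum _ fun i _ => integrable_finsetSum _ fun j _ =>
        (i2 i j).const_mul _
  rw [e4, sub_div, Finset.sum_div, Finset.sum_div]
  have e5 : ∀ i, c i * (∫ x, x i * f x) / (∫ x, f x) = c i * Ef f (fun x => x i) := fun i => by
    unfold Ef; rw [mul_div_assoc]
  have e6 : ∀ i, (∑ j, (1 / 2 * B i j) * ∫ x, x i * x j * f x) / (∫ x, f x) =
      1 / 2 * ∑ j, B i j * Ef f (fun x => x i * x j) := fun i => by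
    unfold Ef
    rw [Finset.sum_div, Finset.mul_sum]
    exact Finset.sum_congr rfl fun j _ => by rw [mul_div_assoc]; ring
  simp only [e5, e6]
  rw [← Finset.mul_sum]
  ring

/-- explicit form of `D` in the notation of `Frame829` -/
theorem DD_limDens (hB : B.PosSemidef) (hC : IsClosed C)
    (hi : (interior C).Nonempty) {a b : ℝ} (ha : 0 < a)
    (hdec : ∀ y ∈ C, (c₀ + c) ⬝ᵥ y ≤ b - a * ‖y‖) :
    DD (limDens B (c₀ + c) C) = Real.log (I (limDens 0 c₀ C) B c fun _ => 1)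
      - ∑ i, (c₀ + c) i * Ev (limDens 0 c₀ C) B c (co i)
      + 1 / 2 * ∑ i, ∑ j, B i j * Ev (limDens 0 c₀ C) B c (fun x => co i x * co j x)
      - 1 / 2 * Real.log (AF (limDens 0 c₀ C) B c).det - n := by
  unfold DD
  rw [entF_limDens hB hC hi ha hdec, AF_limDens, I_limDens]
  simp only [Ev_limDens, one_mul]
  rfl

end Vale.Agent.P248.H551
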