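import Vale.Agent.P248.H551.B4d
import Vale.Agent.P248.NS.T2
import Vale.Agent.P254.EQ.Main5

/-!
P248 / P254, equality case, block B4, part e (helper551): the fields `hc`, `ha`, `hd` of `EQ.Ext`
for the weight `1_C exp (-⟨y,x⟩)` of a pointed cone.
-/

namespace Vale.Agent.P248.H551

open MeasureTheory Matrix Filter Topology Set
open Vale.Agent.P254.L Vale.Agent.P254.R304 Vale.Agent.P248.NS
open Vale.Agent.P254.Fr (AF TF Ev I tl co muF)
open Vale.Agent.P254.EQ (CW n1 entC lf)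

variable {n : ℕ} {C : Set (Fin n → ℝ)} {y : Fin n → ℝ}

/-- the weight `1_C exp (-⟨y,x⟩)` -/
noncomputable def wC (C : Set (Fin n → ℝ)) (y : Fin n → ℝ) : (Fin n → ℝ) → ℝ :=
  fun x => C.indicator (fun x => Real.exp (-(y ⬝ᵥ x))) x

theorem wC_eq (C : Set (Fin n → ℝ)) (y : Fin n → ℝ) : wC C y = limDens 0 (-y) C :=
  (T2.limDens_eq C y).symm

theorem cw_wC (hC : CC C) {a : ℝ} (ha : 0 < a) (h : ∀ z ∈ C, a * ‖z‖ ≤ y ⬝ᵥ z) :
    CW (wC C y) a 1 where
  a_pos := ha
  meas := by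
    rw [wC_eq]
    exact (continuous_tilt 0 (-y)).measurable.indicator hC.closed.measurableSet
  nn := fun x => indicator_nonneg (fun z _ => (Real.exp_pos _).le) x
  le := fun x => by
    unfold wC
    by_cases hx : x ∈ C
    · rw [indicator_of_mem hx, one_mul]
      exact Real.exp_le_exp.2 (by linarith [h x hx])
    · rw [indicator_of_notMem hx]
      positivity
  mass := by
    rw [wC_eq]
    exact (good_limDens Matrix.PosSemidef.zero hC.closed hC.int ha (b := 0) (fun z hz => by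
      have := h z hz
      rw [neg_dotProduct]; linarith)).mass_pos

theorem exists_cw (hC : CC C) (hy : Pos C y) : ∃ a, CW (wC C y) a 1 := by
  obtain ⟨a, ha, h⟩ := hy
  exact ⟨a, cw_wC hC ha h⟩

theorem dec_small {a : ℝ} (h : ∀ z ∈ C, a * ‖z‖ ≤ y ⬝ᵥ z) {c : Fin n → ℝ} (hc : n1 c ≤ a / 2) :
    ∀ z ∈ C, (-y + c) ⬝ᵥ z ≤ 0 - a / 2 * ‖z‖ := by
  intro z hz
  have h1 := h z hz
  have h2 := (le_abs_self _).trans (Vale.Agent.P254.EQ.abs_dot_le_n1 c z)
  have h3 := mul_le_mul_of_nonneg_right hc (norm_nonneg z)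
  rw [add_dotProduct, neg_dotProduct]
  linarith

/-- **field `hc`** -/
theorem ext_hc {F : Profile} (hX : StX F) (hp : Prof0 F) (hC : CC C) (hy : Pos C y)
    (e : Fin n → ℝ) : ∀ᶠ t in 𝓝 (0 : ℝ), ∀ P : Mat n, P.PosSemidef →
      NN P (TF (wC C y) 0 (t • e)) (TF (wC C y) 0 (t • e)) ≤
        4 * ((AF (wC C y) 0 (t • e) * P) ^ 3).trace := by
  obtain ⟨a, ha, h⟩ := hy
  obtain ⟨δ, hδ, hP⟩ := P_cone hX hp one_pos
  filter_upwards [Vale.Agent.P254.EQ.small ha e] with t ht P hPP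
  rw [wC_eq]
  have h1 := hP n C (-y) (t • e) 0 Matrix.PosSemidef.zero hC.closed hC.conv hC.int (a / 2) 0
    (by positivity) (dec_small h ht.le) (by rw [Matrix.zero_mul, Matrix.trace_zero]; exact hδ) P hPP
  rwa [Matrix.mul_zero, Matrix.zero_mul, smul_zero, sub_zero] at h1

/-- the trace of the covariance is bounded along `B = sI` -/
theorem trace_tendsto (hC : CC C) (hy : Pos C y) :
    Tendsto (fun s : ℝ => s * (AF (wC C y) (s • 1) 0).trace) (𝓝[>] 0) (𝓝 0) := by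
  obtain ⟨a, hw⟩ := exists_cw hC hy
  have h1 : ∀ i, Tendsto (fun s : ℝ => AF (wC C y) (s • 1) 0 i i) (𝓝[>] 0)
      (𝓝 (AF (wC C y) ((0 : ℝ) • 1) 0 i i)) := fun i =>
    ((Vale.Agent.P254.EQ.sd2 hw (Vale.Agent.P254.Fr.pg_co i)
      (Vale.Agent.P254.Fr.pg_co i)).continuousWithinAt.tendsto).mono_left
      (nhdsWithin_mono _ Ioi_subset_Ici_self)
  have h2 : Tendsto (fun s : ℝ => (AF (wC C y) (s • 1) 0).trace) (𝓝[>] 0)
      (𝓝 (AF (wC C y) ((0 : ℝ) • 1) 0).trace) := by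
    unfold Matrix.trace
    exact tendsto_finsetSum _ fun i _ => h1 i
  have h3 : Tendsto (fun s : ℝ => s) (𝓝[>] (0 : ℝ)) (𝓝 0) :=
    tendsto_nhdsWithin_of_tendsto_nhds tendsto_id
  have := h3.mul h2
  rwa [zero_mul] at this

theorem trace_smul_one_mul (s : ℝ) (A : Mat n) : ((s • (1 : Mat n)) * A).trace = s * A.trace := by
  rw [Matrix.smul_mul, Matrix.one_mul, Matrix.trace_smul, smul_eq_mul]

theorem smul_one_psd {s : ℝ} (hs : 0 ≤ s) : (s • (1 : Mat n)).PosSemidef :=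
  Matrix.PosSemidef.one.smul hs

/-- **field `ha`** -/
theorem ext_ha {F : Profile} (W : WProfile F) (hX : StX F) (hw : W0 W) (hC : CC C) (hy : Pos C y)
    {ε : ℝ} (hε : 0 < ε) : ∀ᶠ s in 𝓝[>] (0 : ℝ),
      (n : ℝ) + (1 - ε) * s * (AF (wC C y) (s • 1) 0).trace ≤
        entC (wC C y) y s - 1 / 2 * Real.log (AF (wC C y) (s • 1) 0).det := by
  have htr := trace_tendsto hC hy
  obtain ⟨a, ha, h⟩ := hy
  obtain ⟨δ, hδ, hD⟩ := D_cone W hX hw hε
  filter_upwards [htr.eventually (gt_mem_nhds hδ), self_mem_nhdsWithin] with s hs hs0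
  have hs0' : (0 : ℝ) < s := hs0
  have hdec : ∀ z ∈ C, (-y + 0) ⬝ᵥ z ≤ 0 - a / 2 * ‖z‖ :=
    dec_small h (by unfold n1; simp; linarith)
  have h1 := hD n C (-y) 0 (s • 1) (smul_one_psd hs0'.le) hC.closed hC.conv hC.int (a / 2) 0
    (by positivity) hdec (by rw [← wC_eq, trace_smul_one_mul]; exact hs)
  rw [DD_limDens (smul_one_psd hs0'.le) hC.closed hC.int (by positivity) hdec, ← wC_eq,
    trace_smul_one_mul] at h1
  -- rewrite the entropy
  have hCW := cw_wC hC ha h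
  have hAd : Vale.Agent.P254.EQ.Ad a (s • (1 : Mat n)) (0 : Fin n → ℝ) :=
    ⟨fun x => by
      rw [Matrix.smul_mulVec, Matrix.one_mulVec, dotProduct_smul, smul_eq_mul]
      refine mul_nonneg hs0'.le ?_
      unfold dotProduct
      exact Finset.sum_nonneg fun i _ => mul_self_nonneg _, by unfold n1; simp; linarith⟩
  have hL := Vale.Agent.P254.EQ.lin_Ev hCW hAd
  have e1 : Ev (wC C y) (s • 1) 0 (lf y) = ∑ i, y i * Ev (wC C y) (s • 1) 0 (co i) :=
    Vale.Agent.P254.EQ.lin_lf hL y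
  have e2 : ∑ i, (-y + 0 : Fin n → ℝ) i * Ev (wC C y) (s • 1) 0 (co i) =
      -Ev (wC C y) (s • 1) 0 (lf y) := by
    rw [e1, ← Finset.sum_neg_distrib]
    exact Finset.sum_congr rfl fun i _ => by simp
  have e3 : Ev (wC C y) (s • 1) 0 (fun x => x ⬝ᵥ x) =
      ∑ i, Ev (wC C y) (s • 1) 0 (fun x => co i x * co i x) := by
    have e6 : (fun x : Fin n → ℝ => x ⬝ᵥ x) = fun x => x ⬝ᵥ (1 : Mat n) *ᵥ x := by
      simp only [Matrix.one_mulVec]
    rw [e6, hL.quad]
    refine Finset.sum_congr rfl fun k _ => ?_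
    rw [Finset.sum_eq_single k]
    · rw [Matrix.one_apply_eq, one_mul]
      rfl
    · intro l _ hl; rw [Matrix.one_apply_ne (Ne.symm hl), zero_mul]
    · intro h; exact absurd (Finset.mem_univ _) h
  have e4 : ∑ i, ∑ j, (s • (1 : Mat n)) i j * Ev (wC C y) (s • 1) 0 (fun x => co i x * co j x) =
      s * Ev (wC C y) (s • 1) 0 (fun x => x ⬝ᵥ x) := by
    rw [e3, Finset.mul_sum]
    refine Finset.sum_congr rfl fun k _ => ?_
    rw [Finset.sum_eq_single k]
    · rw [Matrix.smul_apply, Matrix.one_apply_eq, smul_eq_mul, mul_one]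
    · intro l _ hl
      rw [Matrix.smul_apply, Matrix.one_apply_ne (Ne.symm hl), smul_zero, zero_mul]
    · intro h; exact absurd (Finset.mem_univ _) h
  rw [e2, e4] at h1
  unfold entC
  linarith

/-- `tr A⁵ ≤ tr A tr A⁴` -/
theorem trace_pow5_le {A : Mat n} (hA : A.PosSemidef) :
    (A ^ 5).trace ≤ A.trace * (A ^ 4).trace := by
  have h1 : (A.trace • (1 : Mat n) - A).PosSemidef := by
    obtain ⟨U, d, hUU, hUU', hspec⟩ := Vale.Agent.P254.MP.diag_spectral hA.isHermitian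
    have hd : ∀ i, 0 ≤ d i := by
      have h1 := psd_congr hA U
      have h2 : Uᵀ * A * U = diagonal d := by
        rw [hspec]
        have : Uᵀ * (U * diagonal d * Uᵀ) * U = (Uᵀ * U) * diagonal d * (Uᵀ * U) := by
          simp only [Matrix.mul_assoc]
        rw [this, hUU', Matrix.one_mul, Matrix.mul_one]
      rw [h2, posSemidef_diagonal_iff] at h1
      exact h1
    have htr : A.trace = ∑ i, d i := by
      rw [hspec, trace_mul_comm, ← Matrix.mul_assoc, hUU', Matrix.one_mul, trace_diagonal]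
    have e : A.trace • (1 : Mat n) - A = U * (Matrix.diagonal fun i => A.trace - d i) * Uᵀ := by
      have e1 : (Matrix.diagonal fun i => A.trace - d i) =
          A.trace • (1 : Mat n) - Matrix.diagonal d := by
        rw [Matrix.smul_one_eq_diagonal, Matrix.diagonal_sub]
      rw [e1, Matrix.mul_sub, Matrix.sub_mul, Matrix.mul_smul, Matrix.mul_one, Matrix.smul_mul, hUU,
        ← hspec]
    rw [e]
    have h3 : (Matrix.diagonal fun i => A.trace - d i : Mat n).PosSemidef :=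
      posSemidef_diagonal_iff.2 fun i => by
        rw [htr, sub_nonneg]
        exact Finset.single_le_sum (fun j _ => hd j) (Finset.mem_univ i)
    have := psd_congr h3 Uᵀ
    rwa [Matrix.transpose_transpose] at this
  have h2 := trace_mul_psd h1 (hA.pow 4)
  rw [Matrix.sub_mul, Matrix.smul_mul, Matrix.one_mul, Matrix.trace_sub, Matrix.trace_smul,
    smul_eq_mul] at h2
  have e : A * A ^ 4 = A ^ 5 := by rw [← pow_succ']
  rw [e] at h2
  linarith

theorem NN_one (T : Ten n) : NN 1 T T = ∑ i, ∑ j, ∑ k, T i j k ^ 2 := by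
  unfold NN
  rw [Vale.Agent.P254.EQ.N3_one]
  exact Finset.sum_congr rfl fun i _ => Finset.sum_congr rfl fun j _ =>
    Finset.sum_congr rfl fun k _ => by ring

theorem sub_cube {X Y : Mat n} (hXY : Commute X Y) : (X - Y) ^ 3 =
    X ^ 3 - (3 : ℝ) • (X ^ 2 * Y) + (3 : ℝ) • (X * Y ^ 2) - Y ^ 3 := by
  have g1 : Y * X = X * Y := hXY.eq.symm
  have g2 : (X - Y) ^ 3 = X * X * X - X * X * Y - X * (Y * X) + X * (Y * Y) - Y * X * X
      + (Y * X) * Y + Y * (Y * X) - Y * Y * Y := by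
    simp only [pow_succ, pow_zero, Matrix.one_mul, sub_mul, mul_sub, Matrix.mul_assoc]
    abel
  rw [g2, g1]
  have g3 : X * (X * Y) = X * X * Y := by rw [Matrix.mul_assoc]
  have g4 : X * Y * X = X * X * Y := by rw [Matrix.mul_assoc, g1, Matrix.mul_assoc]
  have g5 : Y * (X * Y) = X * (Y * Y) := by
    rw [← Matrix.mul_assoc, g1, Matrix.mul_assoc]
  have g6 : X * Y * Y = X * (Y * Y) := by rw [Matrix.mul_assoc]
  rw [g3, g4, g5, g6]
  simp only [pow_succ, pow_zero, Matrix.one_mul, Matrix.mul_assoc]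
  module

theorem cube_expand (A : Mat n) (τ : ℝ) : (A - τ • A ^ 2) ^ 3 =
    A ^ 3 - (3 * τ) • A ^ 4 + (3 * τ ^ 2) • A ^ 5 - τ ^ 3 • A ^ 6 := by
  have h : Commute A (τ • A ^ 2) := ((Commute.refl A).pow_right 2).smul_right τ
  rw [sub_cube h]
  have h1 : A ^ 2 * (τ • A ^ 2) = τ • A ^ 4 := by rw [Matrix.mul_smul, ← pow_add]
  have h2 : A * (τ • A ^ 2) ^ 2 = τ ^ 2 • A ^ 5 := by
    rw [smul_pow, Matrix.mul_smul, ← pow_mul, ← pow_succ']
  have h3 : (τ • A ^ 2) ^ 3 = τ ^ 3 • A ^ 6 := by rw [smul_pow, ← pow_mul]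
  rw [h1, h2, h3, smul_smul, smul_smul]

theorem hd_alg {A : Mat n} (hA : A.PosSemidef) {s ε η : ℝ} (hs : 0 < s)
    (hη0 : 0 < η) (hη1 : η ≤ 1) (hη2 : 12 * η ≤ ε / 2) (htr : s * A.trace ≤ ε / 96) :
    4 * ((A - (2 - η) • (A * (s • (1 : Mat n)) * A)) ^ 3).trace ≤
      4 * (A ^ 3).trace - (24 - ε) * s * (A ^ 4).trace := by
  set γ : ℝ := 2 - η with hγ
  have hγ0 : 1 ≤ γ := by linarith
  have hγ2 : γ ≤ 2 := by linarith
  have e1 : A * (s • (1 : Mat n)) * A = s • A ^ 2 := by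
    rw [Matrix.mul_smul, Matrix.mul_one, Matrix.smul_mul, sq]
  rw [e1, smul_smul, cube_expand]
  simp only [Matrix.trace_add, Matrix.trace_sub, Matrix.trace_smul, smul_eq_mul]
  have p4 : 0 ≤ (A ^ 4).trace := (hA.pow 4).trace_nonneg
  have p6 : 0 ≤ (A ^ 6).trace := (hA.pow 6).trace_nonneg
  have p5 := trace_pow5_le hA
  have pt : 0 ≤ A.trace := hA.trace_nonneg
  generalize (A ^ 3).trace = t3 at *
  generalize (A ^ 4).trace = t4 at *
  generalize (A ^ 5).trace = t5 at *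
  generalize (A ^ 6).trace = t6 at *
  generalize A.trace = t1 at *
  have q1 : 12 * (γ * s) ^ 2 * t5 ≤ ε / 2 * s * t4 := by
    have r1 : 12 * (γ * s) ^ 2 * t5 ≤ 12 * (γ * s) ^ 2 * (t1 * t4) :=
      mul_le_mul_of_nonneg_left p5 (by positivity)
    have r2 : γ ^ 2 ≤ 4 := by nlinarith
    have r3 : 12 * (γ * s) ^ 2 * (t1 * t4) = 12 * γ ^ 2 * (s * t1) * (s * t4) := by ring
    have r4 : 0 ≤ s * t1 := mul_nonneg hs.le pt
    have r5 : 12 * γ ^ 2 * (s * t1) ≤ ε / 2 := by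
      have : γ ^ 2 * (s * t1) ≤ 4 * (s * t1) := mul_le_mul_of_nonneg_right r2 r4
      linarith
    have r6 : 12 * γ ^ 2 * (s * t1) * (s * t4) ≤ ε / 2 * (s * t4) :=
      mul_le_mul_of_nonneg_right r5 (by positivity)
    linarith
  have q2 : 0 ≤ (γ * s) ^ 3 * t6 := by positivity
  have q3 : (24 - ε) * s * t4 + ε / 2 * s * t4 ≤ 12 * (γ * s) * t4 := by
    have r1 : (24 - ε / 2) ≤ 12 * γ := by rw [hγ]; linarith
    have r2 : 0 ≤ s * t4 := by positivity
    have r3 := mul_le_mul_of_nonneg_right r1 r2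
    linarith
  linarith

/-- **field `hd`** -/
theorem ext_hd {F : Profile} (hX : StX F) (hp : Prof0 F) (hC : CC C) (hy : Pos C y)
    {ε : ℝ} (hε : 0 < ε) : ∀ᶠ s in 𝓝[>] (0 : ℝ),
      ∑ i, ∑ j, ∑ k, TF (wC C y) (s • 1) 0 i j k ^ 2 ≤
        4 * ((AF (wC C y) (s • 1) 0) ^ 3).trace
          - (24 - ε) * s * ((AF (wC C y) (s • 1) 0) ^ 4).trace := by
  have htr := trace_tendsto hC hy
  obtain ⟨a, ha, h⟩ := hy
  set η : ℝ := min (ε / 24) 1 with hη
  have hη0 : 0 < η := lt_min (by positivity) one_pos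
  have hη1 : η ≤ 1 := min_le_right _ _
  have hη2 : 12 * η ≤ ε / 2 := by
    have : η ≤ ε / 24 := min_le_left _ _
    linarith
  obtain ⟨δ, hδ, hP⟩ := P_cone hX hp hη0
  filter_upwards [htr.eventually (gt_mem_nhds hδ),
    htr.eventually (gt_mem_nhds (show 0 < ε / 96 by positivity)), self_mem_nhdsWithin]
    with s hs hs' hs0
  have hs0' : (0 : ℝ) < s := hs0
  have hdec : ∀ z ∈ C, (-y + 0) ⬝ᵥ z ≤ 0 - a / 2 * ‖z‖ :=
    dec_small h (by unfold n1; simp; linarith)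
  have h1 := hP n C (-y) 0 (s • 1) (smul_one_psd hs0'.le) hC.closed hC.conv hC.int (a / 2) 0
    (by positivity) hdec (by rw [← wC_eq, trace_smul_one_mul]; exact hs) 1
    Matrix.PosSemidef.one
  rw [← wC_eq, NN_one, Matrix.mul_one] at h1
  have hA : (AF (wC C y) (s • 1) 0).PosSemidef := by
    rw [wC_eq, AF_limDens]
    exact (good_limDens (smul_one_psd hs0'.le) hC.closed hC.int (by positivity) hdec
      ).covF_posDef.posSemidef
  exact h1.trans (hd_alg hA hs0' hη0 hη1 hη2 hs'.le)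

end Vale.Agent.P248.H551
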