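import Vale.Agent.P254.R304.Cone
import Vale.Agent.P248.Defs

/-!
P248, equality case (helper551), block S3: if the cone over a convex body is simplicial then the
body is a simplex.
-/

open MeasureTheory Set Matrix Filter Topology

namespace Vale.Agent.P248.H551

open Vale.Agent.P254.R304 (cone)
open Vale.Agent.P254 (IsConvexBody)

variable {n : ℕ}

lemma cons_mem_cone {K : Set (Fin n → ℝ)} {x : Fin n → ℝ} :
    (Fin.cons 1 x : Fin (n + 1) → ℝ) ∈ cone K ↔ x ∈ K := by
  constructor
  · rintro ⟨_, y, hy, h⟩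
    rw [Fin.tail_cons, Fin.cons_zero, one_smul] at h
    rwa [h]
  · intro hx
    exact ⟨by simp, x, hx, by simp⟩

/-- a vector with positive first coordinate in the cone -/
lemma eq_smul_cons {K : Set (Fin n → ℝ)} {g : Fin (n + 1) → ℝ} (hg : g ∈ cone K) :
    ∃ y ∈ K, g = g 0 • (Fin.cons 1 y : Fin (n + 1) → ℝ) := by
  obtain ⟨_, y, hy, h⟩ := hg
  refine ⟨y, hy, ?_⟩
  funext i
  refine Fin.cases ?_ (fun j => ?_) i
  · simp
  · have := congrFun h j
    simpa [Fin.tail] using this

/-- if the cone over `K` is simplicial then `K` is a simplex -/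
theorem simplex_of_cone {K : Set (Fin n → ℝ)} (hK : Convex ℝ K)
    {L : Matrix (Fin (n + 1)) (Fin (n + 1)) ℝ} (hL : IsUnit L)
    (h : cone K = {x | ∀ i, 0 ≤ (L *ᵥ x) i}) :
    ∃ v : Fin (n + 1) → (Fin n → ℝ), AffineIndependent ℝ v ∧ K = convexHull ℝ (range v) := by
  classical
  have hLd : IsUnit L.det := (Matrix.isUnit_iff_isUnit_det _).mp hL
  set g : Fin (n + 1) → (Fin (n + 1) → ℝ) := fun i => L⁻¹ *ᵥ Pi.single i 1 with hg
  have hLg : ∀ i, L *ᵥ g i = Pi.single i 1 := fun i => by
    rw [hg]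
    simp only
    rw [Matrix.mulVec_mulVec, Matrix.mul_nonsing_inv _ hLd, Matrix.one_mulVec]
  have hmem : ∀ i, g i ∈ cone K := fun i => by
    rw [h]
    intro j
    rw [hLg]
    by_cases hij : j = i
    · subst hij; simp
    · simp [hij]
  have hex : ∀ i, ∃ y ∈ K, g i = g i 0 • (Fin.cons 1 y : Fin (n + 1) → ℝ) :=
    fun i => eq_smul_cons (hmem i)
  choose v hvK hv using hex
  have hne : ∀ i, g i 0 ≠ 0 := fun i h0 => by
    have h1 := hv i
    rw [h0, zero_smul] at h1
    have h2 := hLg i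
    rw [h1, Matrix.mulVec_zero] at h2
    have := congrFun h2 i
    simp at this
  have hpos : ∀ i, 0 < g i 0 := fun i => lt_of_le_of_ne (hmem i).1 (Ne.symm (hne i))
  have hrep : ∀ x : Fin (n + 1) → ℝ, x = ∑ i, (L *ᵥ x) i • g i := by
    intro x
    have h1 : x = L⁻¹ *ᵥ (L *ᵥ x) := by
      rw [Matrix.mulVec_mulVec, Matrix.nonsing_inv_mul _ hLd, Matrix.one_mulVec]
    have h2 : ∀ w : Fin (n + 1) → ℝ, L⁻¹ *ᵥ w = ∑ i, w i • g i := by
      intro w
      have h3 : w = ∑ i, w i • (Pi.single i (1 : ℝ) : Fin (n + 1) → ℝ) := by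
        ext j
        simp [Finset.sum_apply, Pi.single_apply]
      conv_lhs => rw [h3]
      rw [Matrix.mulVec_sum]
      refine Finset.sum_congr rfl fun i _ => ?_
      rw [Matrix.mulVec_smul]
    conv_lhs => rw [h1]
    exact h2 _
  refine ⟨v, ?_, Subset.antisymm ?_ ?_⟩
  · rw [affineIndependent_iff]
    intro s w hw hwv e he
    have h1 : ∑ i ∈ s, (w i / g i 0) • g i = 0 := by
      have h2 : ∀ i ∈ s, (w i / g i 0) • g i = w i • (Fin.cons 1 (v i) : Fin (n + 1) → ℝ) := by
        intro i _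
        calc (w i / g i 0) • g i
            = (w i / g i 0) • (g i 0 • (Fin.cons 1 (v i) : Fin (n + 1) → ℝ)) :=
              congrArg ((w i / g i 0) • ·) (hv i)
          _ = w i • (Fin.cons 1 (v i) : Fin (n + 1) → ℝ) := by
              rw [smul_smul, div_mul_cancel₀ _ (hne i)]
      rw [Finset.sum_congr rfl h2]
      funext j
      refine Fin.cases ?_ (fun k => ?_) j
      · simpa using hw
      · have := congrFun hwv k
        simpa using this
    have h3 := congrArg (fun x => (L *ᵥ x) e) h1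
    simp only [Matrix.mulVec_zero, Pi.zero_apply] at h3
    rw [Matrix.mulVec_sum, Finset.sum_apply, Finset.sum_eq_single e] at h3
    · rw [Matrix.mulVec_smul, hLg] at h3
      simp only [Pi.smul_apply, Pi.single_eq_same, smul_eq_mul, mul_one] at h3
      rcases div_eq_zero_iff.1 h3 with h4 | h4
      · exact h4
      · exact absurd h4 (hne e)
    · intro i _ hie
      rw [Matrix.mulVec_smul, hLg]
      simp [Ne.symm hie]
    · intro hes
      exact absurd he hes
  · intro x hx
    have h1 : (Fin.cons 1 x : Fin (n + 1) → ℝ) ∈ cone K := cons_mem_cone.2 hx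
    have h2 := h1
    rw [h] at h2
    set c : Fin (n + 1) → ℝ := L *ᵥ (Fin.cons 1 x : Fin (n + 1) → ℝ) with hc
    have h3 := hrep (Fin.cons 1 x)
    have h4 : ∀ i, (L *ᵥ (Fin.cons 1 x : Fin (n + 1) → ℝ)) i • g i =
        (c i * g i 0) • (Fin.cons 1 (v i) : Fin (n + 1) → ℝ) := by
      intro i
      calc (L *ᵥ (Fin.cons 1 x : Fin (n + 1) → ℝ)) i • g i
          = (L *ᵥ (Fin.cons 1 x : Fin (n + 1) → ℝ)) i •
              (g i 0 • (Fin.cons 1 (v i) : Fin (n + 1) → ℝ)) :=
            congrArg ((L *ᵥ (Fin.cons 1 x : Fin (n + 1) → ℝ)) i • ·) (hv i)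
        _ = _ := by rw [smul_smul]
    rw [Finset.sum_congr rfl fun i _ => h4 i] at h3
    have hs : ∑ i, c i * g i 0 = 1 := by
      have := congrFun h3 0
      simp at this
      exact this.symm
    have hx' : x = ∑ i, (c i * g i 0) • v i := by
      funext j
      have := congrFun h3 j.succ
      simp at this
      simpa using this
    rw [hx']
    refine (convex_convexHull ℝ (range v)).sum_mem (fun i _ => mul_nonneg (h2 i) (hpos i).le) hs
      fun i _ => subset_convexHull ℝ _ ⟨i, rfl⟩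
  · refine convexHull_min ?_ hK
    rintro _ ⟨i, rfl⟩
    exact hvK i

end Vale.Agent.P248.H551
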