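import Vale.Agent.P248.NS.Asm541
import Vale.Agent.P248.NS.T9
import Vale.Agent.P248.NS.T10
import Vale.Agent.P248.H551.Simp

/-!
P248, equality case (helper551), block B6: from the sharp determinant inequality for cones with its
equality case to the sharp volume product inequality with its equality case.
-/

open MeasureTheory Set Matrix Filter Topology Metric

namespace Vale.Agent.P248.H551

open Vale.Agent.P248.NS
open Vale.Agent.P254.R304 (covF limDens cone)
open Vale.Agent.P248.Cmp (SD Dat Fe)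

/-- the sharp determinant inequality for the exponential measures on cones -/
def Sharp : Prop := ∀ (N : ℕ) (C : Set (Fin N → ℝ)), CC C → ∀ y, Pos C y →
  (cov C y).det ≤ Z C y ^ 2

/-- its equality case: only simplicial cones -/
def EqSharp : Prop := ∀ (N : ℕ) (C : Set (Fin N → ℝ)), CC C → ∀ y, Pos C y →
  (cov C y).det = Z C y ^ 2 →
    ∃ L : Matrix (Fin N) (Fin N) ℝ, IsUnit L ∧ C = {x | ∀ i, 0 ≤ (L *ᵥ x) i}

variable {N : ℕ} {C : Set (Fin N → ℝ)}

/-- the comparison data with `D = 1` -/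
theorem dat (hS : Sharp) (hN : 0 < N) (hC : CC C) :
    Dat {x | Pos (dual C) x} {y | Pos C y} (fun y => Real.log (Z C y))
      (fun x => Real.log (Z (dual C) x)) (cov C) (cov (dual C)) 1 := by
  have hD := T1.stmtDual
  obtain ⟨hCD, h2, h3⟩ := hD N C hC
  have hom : ∀ {V : Set (Fin N → ℝ)}, CC V → ∀ y ∈ {y | Pos V y}, ∀ t : ℝ, 0 < t →
      Real.log (Z V (t • y)) = Real.log (Z V y) - N * Real.log t := by
    intro V hV y hy t ht
    rw [(T2a.stmtScale N V hV y hy).2 t ht, Real.log_mul (by positivity) (T2a.Z_pos hV hy).ne',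
      Real.log_inv, Real.log_pow]
    ring
  have hdet : ∀ {V : Set (Fin N → ℝ)}, CC V → ∀ y ∈ {y | Pos V y},
      (cov V y).det ≤ 1 * Real.exp (2 * Real.log (Z V y)) := by
    intro V hV y hy
    have h := hS N V hV y hy
    have hZ := T2a.Z_pos hV hy
    rw [one_mul, two_mul, Real.exp_add, Real.exp_log hZ, ← sq]
    exact h
  have hcontZ : ∀ {V : Set (Fin N → ℝ)}, CC V → ContinuousOn (fun y => Real.log (Z V y)) {y | Pos V y} :=
    fun hV y hy => ((Asm541.Z_cont hV hy).log (T2a.Z_pos hV hy).ne').continuousWithinAt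
  exact
    { Npos := hN
      opC := Asm541.isOpen_pos _
      opC' := Asm541.isOpen_pos _
      smC := fun x hx t ht => Asm541.pos_smul hx ht
      smC' := fun y hy t ht => Asm541.pos_smul hy ht
      pos := fun x hx y hy => T8.pairing_pos hN hC hD hx hy
      contu := hcontZ hC
      contg := hcontZ hCD
      homu := hom hC
      homg := hom hCD
      Ppos := fun y hy => T8.cov_posDef hC hy
      Qpos := fun x hx => T8.cov_posDef hCD hx
      sdu := fun y hy b => Asm541.sd hC hy b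
      sdg := fun x hx b => Asm541.sd hCD hx b
      Dpos := one_pos
      detu := hdet hC
      detg := hdet hCD }

/-- the sharp inequality for pairs of cones, logarithmic form -/
theorem main_log (hS : Sharp) (hN : 0 < N) (hC : CC C) {x y : Fin N → ℝ} (hx : Pos (dual C) x)
    (hy : Pos C y) :
    N * Real.log N ≤ Real.log (Z C y) + Real.log (Z (dual C) x) + N * Real.log (x ⬝ᵥ y) := by
  have hD := T1.stmtDual
  obtain ⟨hCD, h2, h3⟩ := hD N C hC
  obtain ⟨c, hc, hcr⟩ := T4.stmtCrude N C hN hC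
  have hZ1 : ∀ {y}, Pos C y → 0 < Z C y := fun h => T2a.Z_pos hC h
  have hZ2 : ∀ {x}, Pos (dual C) x → 0 < Z (dual C) x := fun h => T2a.Z_pos hCD h
  have hp : ∀ x, Pos (dual C) x → ∀ y, Pos C y → 0 < x ⬝ᵥ y := fun x hx y hy =>
    T8.pairing_pos hN hC hD hx hy
  have hprog : ∀ c : ℝ, IsCompact {x | x ∈ {x | Pos (dual C) x} ∧ ‖x‖ = 1 ∧
      Real.log (Z (dual C) x) + N * Real.log (x ⬝ᵥ y) ≤ c} := by
    intro c
    have hy2 : Pos (dual (dual C)) y := T1.pos_dual (h3 y hy)
    have := Asm541.compact_sub hN hCD hy2 c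
    simpa only [dotProduct_comm y] using this
  have hM : ∀ x ∈ {x | Pos (dual C) x}, ∀ y ∈ {y | Pos C y},
      -(-Real.log c) ≤ Real.log (Z C y) + Real.log (Z (dual C) x) + N * Real.log (x ⬝ᵥ y) := by
    intro x hx y hy
    have h1 := hcr x y hx hy
    have h4 := hp x hx y hy
    have h5 := hZ1 hy
    have h6 := hZ2 hx
    have h7 := Real.log_le_log hc h1
    rw [Real.log_mul (by positivity) (by positivity), Real.log_mul h5.ne' h6.ne', Real.log_pow] at h7
    linarith
  have hfin := (dat hS hN hC).main (x1 := x) (y1 := y) hx hy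
    (fun c => Asm541.compact_sub hN hC hx c) hprog hM hx hy
  rwa [Real.log_one, sub_zero] at hfin

/-- if the minimum `N log N` is attained at `(x0, y0)` then the determinant inequality is an
equality at a multiple of `y0` -/
theorem det_eq_of_attained (hS : Sharp) (hN : 0 < N) (hC : CC C) {x0 y0 : Fin N → ℝ}
    (hx0 : Pos (dual C) x0) (hy0 : Pos C y0)
    (h0 : Real.log (Z C y0) + Real.log (Z (dual C) x0) + N * Real.log (x0 ⬝ᵥ y0) =
      N * Real.log N) :
    ∃ y, Pos C y ∧ (cov C y).det = Z C y ^ 2 := by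
  have h := dat hS hN hC
  obtain ⟨hCD, h2, h3⟩ := T1.stmtDual N C hC
  have hNr : (0 : ℝ) < N := by exact_mod_cast hN
  have hp0 : 0 < x0 ⬝ᵥ y0 := h.pos x0 hx0 y0 hy0
  set s : ℝ := N / (x0 ⬝ᵥ y0) with hs
  have hs0 : 0 < s := div_pos hNr hp0
  have hy : Pos C (s • y0) := Asm541.pos_smul hy0 hs0
  have hN0 : x0 ⬝ᵥ (s • y0) = N := by
    rw [dotProduct_smul, smul_eq_mul, hs]
    field_simp
  have hhom := h.homu y0 hy0 s hs0

  have hls : Real.log s = Real.log N - Real.log (x0 ⬝ᵥ y0) := by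
    rw [hs, Real.log_div hNr.ne' hp0.ne']
  have hsum : Real.log (Z C (s • y0)) + Real.log (Z (dual C) x0) = 0 := by
    rw [hhom, hls]
    linarith
  have hmin : ∀ x ∈ {x | Pos (dual C) x}, ∀ y ∈ {y | Pos C y},
      Fe (fun y => Real.log (Z C y)) (fun x => Real.log (Z (dual C) x)) x0 y0 0 x0 (s • y0) ≤
      Fe (fun y => Real.log (Z C y)) (fun x => Real.log (Z (dual C) x)) x0 y0 0 x y := by
    intro x hx y hy'
    have h1 := main_log hS hN hC hx hy'
    simp only [Fe, zero_mul, add_zero]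
    rw [hN0, hsum, zero_add]
    exact h1
  have hdet := Cmp.one_le_det (h.Ppos _ hy) (h.Qpos _ hx0) one_pos (fun a b => by
    have := Cmp.second_var h.opC h.opC' h.pos hx0 hy0 hx0 hy h.Npos hN0 le_rfl hmin
      (h.sdu _ hy b) (h.sdg _ hx0 a)
    simpa using this)
  rw [one_pow, one_mul] at hdet
  have hZ1 := T2a.Z_pos hC hy
  have hZ2 := T2a.Z_pos hCD hx0
  have hZZ : Z C (s • y0) * Z (dual C) x0 = 1 := by
    rw [← Real.log_mul hZ1.ne' hZ2.ne'] at hsum
    have := congrArg Real.exp hsum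
    rwa [Real.exp_log (mul_pos hZ1 hZ2), Real.exp_zero] at this
  have hd1 := hS N C hC _ hy
  have hd2 := hS N (dual C) hCD _ hx0
  have hp1 := (h.Ppos _ hy).det_pos
  have hp2 := (h.Qpos _ hx0).det_pos
  refine ⟨s • y0, hy, le_antisymm hd1 ?_⟩
  by_contra hlt
  push Not at hlt
  have h5 : (cov C (s • y0)).det * (cov (dual C) x0).det <
      Z C (s • y0) ^ 2 * Z (dual C) x0 ^ 2 :=
    mul_lt_mul hlt hd2 hp2 (by positivity)
  rw [← mul_pow, hZZ, one_pow] at h5
  linarith

/-- attainment of the minimum in `x` for fixed `y` -/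
theorem exists_min (hN : 0 < N) (hC : CC C) {y : Fin N → ℝ} (hy : Pos C y) :
    ∃ x0, Pos (dual C) x0 ∧ ∀ x, Pos (dual C) x →
      Real.log (Z (dual C) x0) + N * Real.log (x0 ⬝ᵥ y) ≤
        Real.log (Z (dual C) x) + N * Real.log (x ⬝ᵥ y) := by
  obtain ⟨hCD, h2, h3⟩ := T1.stmtDual N C hC
  obtain ⟨x1, hx1⟩ := hCD.pos
  have hy2 : Pos (dual (dual C)) y := T1.pos_dual (h3 y hy)
  -- `F` is homogeneous of degree zero
  set F : (Fin N → ℝ) → ℝ := fun x => Real.log (Z (dual C) x) + N * Real.log (y ⬝ᵥ x) with hF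
  have hposd : ∀ x, Pos (dual C) x → 0 < y ⬝ᵥ x := fun x hx => by
    rw [dotProduct_comm]; exact T8.pairing_pos hN hC T1.stmtDual hx hy
  have hFh : ∀ x, Pos (dual C) x → ∀ t : ℝ, 0 < t → F (t • x) = F x := by
    intro x hx t ht
    simp only [hF]
    rw [(T2a.stmtScale N _ hCD x hx).2 t ht, Real.log_mul (by positivity)
      (T2a.Z_pos hCD hx).ne', Real.log_inv, Real.log_pow, dotProduct_smul, smul_eq_mul,
      Real.log_mul ht.ne' (hposd x hx).ne']
    ring
  have nrm : ∀ x, Pos (dual C) x → 0 < ‖x‖ := fun x hx => T8.norm_pos_of_pos hN hCD hx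
  have hx1' : Pos (dual C) (‖x1‖⁻¹ • x1) := Asm541.pos_smul hx1 (inv_pos.2 (nrm x1 hx1))
  have n1 : ∀ x, Pos (dual C) x → ‖‖x‖⁻¹ • x‖ = 1 := fun x hx => by
    rw [norm_smul, norm_inv, norm_norm, inv_mul_cancel₀ (nrm x hx).ne']
  have hcpt := Asm541.compact_sub hN hCD hy2 (F (‖x1‖⁻¹ • x1))
  have hcont : ContinuousOn F {x | x ∈ {x | Pos (dual C) x} ∧ ‖x‖ = 1 ∧
      Real.log (Z (dual C) x) + N * Real.log (y ⬝ᵥ x) ≤ F (‖x1‖⁻¹ • x1)} := by
    intro x hx
    have h1 : ContinuousAt (fun x : Fin N → ℝ => y ⬝ᵥ x) x := by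
      have : Continuous fun x : Fin N → ℝ => y ⬝ᵥ x := by
        unfold dotProduct
        fun_prop
      exact this.continuousAt
    exact (((Asm541.Z_cont hCD hx.1).log (T2a.Z_pos hCD hx.1).ne').add
      (continuousAt_const.mul (h1.log (hposd x hx.1).ne'))).continuousWithinAt
  obtain ⟨x0, hx0, hmin⟩ := hcpt.exists_isMinOn ⟨_, hx1', n1 x1 hx1, le_rfl⟩ hcont
  refine ⟨x0, hx0.1, fun x hx => ?_⟩
  have key : F x0 ≤ F x := by
    rw [← hFh x hx ‖x‖⁻¹ (inv_pos.2 (nrm x hx))]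
    by_cases hc : F (‖x‖⁻¹ • x) ≤ F (‖x1‖⁻¹ • x1)
    · exact hmin ⟨Asm541.pos_smul hx (inv_pos.2 (nrm x hx)), n1 x hx, hc⟩
    · exact (hx0.2.2 : F x0 ≤ _).trans (not_le.1 hc).le
  simpa only [hF, dotProduct_comm y] using key

end Vale.Agent.P248.H551
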