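import Vale.Agent.P248.H551.Full
import Vale.Agent.P248.NS.T2

/-!
P248 (helper551): the sharp determinant inequality for cones from the sharp entropy inequality
`NiceDDL 0` of P254.
-/

open MeasureTheory Set Matrix Filter Topology Metric

namespace Vale.Agent.P248.H551

open Vale.Agent.P248.NS
open Vale.Agent.P254.R304 (covF limDens cone)

/-- `D ≥ 0` for the nice measures in all dimensions gives `det cov ≤ Z ^ 2` for all cones -/
theorem sharp_of_nice (hN : ∀ N, Vale.Agent.P254.X.Loss.NiceDDL 0 N) : Sharp := by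
  intro N C hC y hy
  have h := T2.stmtLoss 0 N (hN N) C hC y hy
  have hZ := T2a.Z_pos hC hy
  have hd := (T8.cov_posDef hC hy).det_pos
  rw [← Real.log_le_log_iff hd (by positivity), Real.log_pow]
  push_cast
  linarith

/-- the inequality part of Q2 -/
theorem ineq_of_nice (hN : ∀ N, Vale.Agent.P254.X.Loss.NiceDDL 0 N) {n : ℕ}
    {K : Set (EuclideanSpace ℝ (Fin n))} (hK : IsConvexBody K) :
    ENNReal.ofReal (((n : ℝ) + 1) ^ (n + 1) / (n.factorial : ℝ) ^ 2) ≤ volumeProduct K :=
  volumeProduct_ge (sharp_of_nice hN) hK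

/-- Q2 with its equality case -/
theorem full_of_nice (hN : ∀ N, Vale.Agent.P254.X.Loss.NiceDDL 0 N) (hE : EqSharp) {n : ℕ}
    {K : Set (EuclideanSpace ℝ (Fin n))} (hK : IsConvexBody K) :
    ENNReal.ofReal (((n : ℝ) + 1) ^ (n + 1) / (n.factorial : ℝ) ^ 2) ≤ volumeProduct K ∧
      (volumeProduct K = ENNReal.ofReal (((n : ℝ) + 1) ^ (n + 1) / (n.factorial : ℝ) ^ 2) ↔
        IsSimplex K) :=
  full_of (sharp_of_nice hN) hE hK

end Vale.Agent.P248.H551
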