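import Vale.Agent.P248.MathlibUsed
import Vale.Agent.P248.Defs

/-!
P248, equality case (helper551): the volume product of a simplex is at most the conjectured value
(taken over from the bundle `P248.Bdl.B1`, only the parts that are needed).
-/

set_option linter.all false

open MeasureTheory Set
open scoped ENNReal Topology Pointwise

namespace Vale.Agent.P248.H551.SV

section

variable {ι : Type*} [Fintype ι] [DecidableEq ι]

/-- Diagonal maps. -/
noncomputable def diagMap (c : ι → ℝ) : (ι → ℝ) →ₗ[ℝ] (ι → ℝ) := Matrix.toLin' (Matrix.diagonal c)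

theorem diagMap_apply (c x : ι → ℝ) (i : ι) : diagMap c x i = c i * x i := by
  simp [diagMap, Matrix.toLin'_apply, Matrix.mulVec_diagonal]

theorem diagMap_det (c : ι → ℝ) : LinearMap.det (diagMap c) = ∏ i, c i := by
  simp only [diagMap, LinearMap.det_toLin', Matrix.det_diagonal]

theorem diagMap_image_isClosed {c : ι → ℝ} (hc : ∀ i, c i ≠ 0) {S : Set (ι → ℝ)} (hS : IsClosed S) :
    IsClosed (diagMap c '' S) := by
  have hdet : LinearMap.det (diagMap c) ≠ 0 := by
    rw [diagMap_det]; exact Finset.prod_ne_zero_iff.mpr fun i _ => hc i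
  exact (LinearMap.equivOfDetNeZero (diagMap c)
        hdet).toContinuousLinearEquiv.toHomeomorph.isClosedMap _ hS

theorem volume_coord_zero (i : ι) : volume {x : ι → ℝ | x i = 0} = 0 := by
  have hker : LinearMap.ker (LinearMap.proj i : (ι → ℝ) →ₗ[ℝ] ℝ) ≠ ⊤ := by
    intro htop
    have h0 : (LinearMap.proj i : (ι → ℝ) →ₗ[ℝ] ℝ) (Pi.single i 1) = 0 := by
      rw [← LinearMap.mem_ker, htop]; trivial
    simp at h0
  have := Measure.addHaar_submodule volume _ hker
  refine measure_mono_null ?_ this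
  intro x hx
  simpa using hx

/-- Sign patterns. -/
noncomputable def sgn (z : ι → ℝ) (J : Finset ι) : ι → ℝ := fun i => if i ∈ J then 1 else -(z i)⁻¹

theorem sgn_prod (z : ι → ℝ) (hz : ∀ i, 0 < z i) (J : Finset ι) :
    |∏ i, sgn z J i| = ∏ i ∈ Jᶜ, (z i)⁻¹ := by
  rw [Finset.abs_prod, ← Finset.prod_mul_prod_compl J]
  have h1 : ∏ i ∈ J, |sgn z J i| = 1 := by
    refine Finset.prod_eq_one fun i hi => ?_
    simp [sgn, hi]
  rw [h1, one_mul]
  refine Finset.prod_congr rfl fun i hi => ?_
  have := hz i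
  simp [sgn, Finset.mem_compl.mp hi, abs_of_pos this]

theorem orthant_lemma {z : ι → ℝ} (hz : ∀ i, 0 < z i) (S : Finset ι → Set (ι → ℝ))
    (hS : ∀ J, IsClosed (S J)) (hS0 : ∀ J, ∀ x ∈ S J, ∀ i, 0 ≤ x i) (C : Set (ι → ℝ))
    (hC : ∀ J, diagMap (sgn z J) '' S J ⊆ C) :
    ∑ J, ENNReal.ofReal (∏ i ∈ Jᶜ, (z i)⁻¹) * volume (S J) ≤ volume C := by
  have hne : ∀ J i, sgn z J i ≠ 0 := fun J i => by
    have := (hz i).ne'
    by_cases h : i ∈ J <;> simp [sgn, h, this]
  have himg : ∀ J, volume (diagMap (sgn z J) '' S J) =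
      ENNReal.ofReal (∏ i ∈ Jᶜ, (z i)⁻¹) * volume (S J) := fun J => by
    rw [Measure.addHaar_image_linearMap, diagMap_det, sgn_prod z hz]
  have hmeas : ∀ J, MeasurableSet (diagMap (sgn z J) '' S J) := fun J =>
    (diagMap_image_isClosed (hne J) (hS J)).measurableSet
  have key : ∀ J J' : Finset ι, ∀ i, i ∈ J → i ∉ J' →
      (diagMap (sgn z J) '' S J) ∩ (diagMap (sgn z J') '' S J') ⊆ {x | x i = 0} := by
    rintro J J' i hi hi' _ ⟨⟨u, hu, rfl⟩, ⟨u', hu', h⟩⟩
    have h1 : diagMap (sgn z J) u i = u i := by rw [diagMap_apply]; simp [sgn, hi]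
    have h2 : diagMap (sgn z J') u' i = -(z i)⁻¹ * u' i := by rw [diagMap_apply]; simp [sgn, hi']
    have h3 := hS0 J u hu i
    have h4 := hS0 J' u' hu' i
    have h5 := inv_pos.mpr (hz i)
    have h6 : diagMap (sgn z J) u i = diagMap (sgn z J') u' i := by rw [h]
    simp only [mem_setOf_eq]
    rw [h1]
    rw [h1, h2] at h6
    nlinarith only [h3, h6, h5, h4]
  have hdisj : Set.Pairwise (↑(Finset.univ : Finset (Finset ι))) (fun J J' => AEDisjoint volume
      (diagMap (sgn z J) '' S J) (diagMap (sgn z J') '' S J')) := by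
    intro J _ J' _ hJJ'
    have : ∃ i, (i ∈ J ∧ i ∉ J') ∨ (i ∈ J' ∧ i ∉ J) := by
      by_contra hcon
      push Not at hcon
      apply hJJ'
      ext i
      exact ⟨(hcon i).1, (hcon i).2⟩
    obtain ⟨i, hi | hi⟩ := this
    · exact measure_mono_null (key J J' i hi.1 hi.2) (volume_coord_zero i)
    · rw [AEDisjoint, inter_comm]
      exact measure_mono_null (key J' J i hi.1 hi.2) (volume_coord_zero i)
  calc ∑ J, ENNReal.ofReal (∏ i ∈ Jᶜ, (z i)⁻¹) * volume (S J)
      = ∑ J, volume (diagMap (sgn z J) '' S J) := Finset.sum_congr rfl fun J _ => (himg J).symm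
    _ = volume (⋃ J ∈ (Finset.univ : Finset (Finset ι)), diagMap (sgn z J) '' S J) :=
        (measure_biUnion_finset₀ hdisj fun J _ => (hmeas J).nullMeasurableSet).symm
    _ ≤ volume C := by
        refine measure_mono (iUnion₂_subset fun J _ => hC J)

/-- The standard simplex. -/
def stdS (ι : Type*) [Fintype ι] : Set (ι → ℝ) := {x | (∀ i, 0 ≤ x i) ∧ ∑ i, x i ≤ 1}

theorem stdS_isClosed : IsClosed (stdS ι) := by
  have h1 : IsClosed {x : ι → ℝ | ∀ i, 0 ≤ x i} := by
    have : {x : ι → ℝ | ∀ i, 0 ≤ x i} = ⋂ i, {x : ι → ℝ | 0 ≤ x i} := by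
      ext x; simp only [mem_ofPred_eq, mem_iInter]
    rw [this]
    exact isClosed_iInter fun i => isClosed_le continuous_const (continuous_apply i)
  have h2 : IsClosed {x : ι → ℝ | ∑ i, x i ≤ 1} :=
    isClosed_le (continuous_finsetSum _ fun i _ => continuous_apply i) continuous_const
  exact h1.inter h2

/-- The polar set of K with respect to the point z. -/
def polarP (K : Set (ι → ℝ)) (z : ι → ℝ) : Set (ι → ℝ) :=
  {y | ∀ x ∈ K, ∑ i, (x i - z i) * y i ≤ 1}

/-- The simplex with vertices `0` and `a i • e i`. -/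
def simpA (a : ι → ℝ) : Set (ι → ℝ) := {x | (∀ i, 0 ≤ x i) ∧ ∑ i, x i / a i ≤ 1}

theorem simpA_eq_preimage {a : ι → ℝ} (ha : ∀ i, 0 < a i) :
    simpA a = diagMap (fun i => (a i)⁻¹) ⁻¹' stdS ι := by
  ext x
  simp only [simpA, stdS, mem_ofPred_eq, mem_preimage, diagMap_apply]
  constructor
  · rintro ⟨h1, h2⟩
    refine ⟨fun i => mul_nonneg (inv_pos.mpr (ha i)).le (h1 i), ?_⟩
    convert h2 using 2 with i
    rw [div_eq_inv_mul]
  · rintro ⟨h1, h2⟩
    refine ⟨fun i => ?_, ?_⟩
    · have := h1 i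
      exact (mul_nonneg_iff_of_pos_left (inv_pos.mpr (ha i))).mp this
    · convert h2 using 2 with i
      rw [div_eq_inv_mul]

theorem volume_simpA {a : ι → ℝ} (ha : ∀ i, 0 < a i) :
    volume (simpA a) = ENNReal.ofReal (∏ i, a i) * volume (stdS ι) := by
  have hdet : LinearMap.det (diagMap fun i => (a i)⁻¹) ≠ 0 := by
    rw [diagMap_det]
    exact Finset.prod_ne_zero_iff.mpr fun i _ => (inv_pos.mpr (ha i)).ne'
  rw [simpA_eq_preimage ha, Measure.addHaar_preimage_linearMap volume hdet, diagMap_det]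
  congr 2
  rw [Finset.prod_inv_distrib, inv_inv, abs_of_pos (Finset.prod_pos fun i _ => ha i)]

theorem volume_stdS_le :
    volume (stdS ι) ≤ ENNReal.ofReal (1 / (Fintype.card ι).factorial) := by
  set n := Fintype.card ι with hn
  have horth := orthant_lemma (z := fun _ : ι => (1 : ℝ)) (fun _ => one_pos) (fun _ => stdS ι)
    (fun _ => stdS_isClosed) (fun _ x hx => hx.1) {x : ι → ℝ | ∑ i, |x i| ≤ 1} (by
      rintro J _ ⟨u, ⟨hu0, hu1⟩, rfl⟩
      simp only [mem_ofPred_eq, diagMap_apply]
      refine le_trans (le_of_eq (Finset.sum_congr rfl fun i _ => ?_)) hu1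
      by_cases h : i ∈ J <;> simp [sgn, h, abs_of_nonneg (hu0 i)])
  rcases isEmpty_or_nonempty ι with he | hne
  · have h0 : n = 0 := by rw [hn]; exact Fintype.card_eq_zero
    have h2 : volume (univ : Set (ι → ℝ)) = 1 := by
      rw [volume_pi, Measure.pi_univ, Finset.univ_eq_empty, Finset.prod_empty]
    rw [h0]
    simpa only [Nat.factorial_zero, Nat.cast_one, ne_eq, one_ne_zero, not_false_eq_true, div_self,     ENNReal.ofReal_one, ge_iff_le] using (measure_mono (subset_univ (stdS ι))).trans h2.le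
  have h1 := MeasureTheory.volume_sum_rpow_le ι (le_refl (1 : ℝ)) 1
  have h2 : {x : ι → ℝ | (∑ i, |x i| ^ (1 : ℝ)) ^ (1 / (1 : ℝ)) ≤ 1} = {x : ι → ℝ | ∑ i, |x i| ≤ 1} := by
    ext x; simp only [Real.rpow_one, ne_eq, one_ne_zero, not_false_eq_true, div_self, mem_ofPred_eq]
  rw [h2] at h1
  rw [h1] at horth
  simp only [inv_one, Finset.prod_const_one, ENNReal.ofReal_one, one_mul, Finset.sum_const,
    Finset.card_univ, Fintype.card_finset, nsmul_eq_mul] at horth
  have h4 : (2 * Real.Gamma (1 / 1 + 1)) ^ Fintype.card ι /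
      Real.Gamma (Fintype.card ι / 1 + 1) = 2 ^ n * (1 / (n.factorial : ℝ)) := by
    have e1 : (1 : ℝ) / 1 + 1 = 2 := by norm_num
    rw [e1, Real.Gamma_two, div_one, ← hn, Real.Gamma_nat_eq_factorial]
    ring
  rw [h4, one_pow, one_mul, ENNReal.ofReal_mul (by positivity)] at horth
  have h5 : ENNReal.ofReal ((2 : ℝ) ^ n) = 2 ^ n := by
    rw [ENNReal.ofReal_pow (by norm_num)]; norm_num
  rw [h5] at horth
  have h6 : ((2 ^ Fintype.card ι : ℕ) : ℝ≥0∞) = 2 ^ n := by rw [← hn]; push_cast; rfl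
  rw [h6] at horth
  exact (ENNReal.mul_le_mul_iff_right (by positivity) (by finiteness)).mp horth

end

section

variable {n : ℕ}

/-- The affine frame map. -/
noncomputable def frame (p : EuclideanSpace ℝ (Fin n))
    (b : Module.Basis (Fin n) ℝ (EuclideanSpace ℝ (Fin n))) (u : Fin n → ℝ) :
    EuclideanSpace ℝ (Fin n) := p + b.equivFun.symm u

/-- The pairing map. -/
noncomputable def coframe (b : Module.Basis (Fin n) ℝ (EuclideanSpace ℝ (Fin n)))
    (y : EuclideanSpace ℝ (Fin n)) : Fin n → ℝ := fun i => inner ℝ y (b i)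

/-- The matrix of the frame: its columns are the basis vectors. -/
noncomputable def fmat (b : Module.Basis (Fin n) ℝ (EuclideanSpace ℝ (Fin n))) :
    Matrix (Fin n) (Fin n) ℝ := fun i j => (b j) i

theorem frame_homeo (p : EuclideanSpace ℝ (Fin n))
    (b : Module.Basis (Fin n) ℝ (EuclideanSpace ℝ (Fin n))) :
    ∃ h : (Fin n → ℝ) ≃ₜ EuclideanSpace ℝ (Fin n), ∀ u, h u = frame p b u := by
  refine ⟨(b.equivFun.symm.toContinuousLinearEquiv.toHomeomorph).trans (Homeomorph.addLeft p), ?_⟩
  intro u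
  rfl

theorem polarAt_frame (p : EuclideanSpace ℝ (Fin n))
    (b : Module.Basis (Fin n) ℝ (EuclideanSpace ℝ (Fin n))) (K : Set (EuclideanSpace ℝ (Fin n)))
    (u : Fin n → ℝ) :
    polarAt K (frame p b u) = coframe b ⁻¹' (polarP (frame p b ⁻¹' K) u) := by
  have key : ∀ (y : EuclideanSpace ℝ (Fin n)) (x' : Fin n → ℝ),
      inner ℝ y (frame p b x' - frame p b u) = ∑ i, (x' i - u i) * coframe b y i := by
    intro y x'
    have h1 : frame p b x' - frame p b u = ∑ i, (x' i - u i) • b i := by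
      unfold frame
      rw [add_sub_add_left_eq_sub, ← map_sub, Module.Basis.equivFun_symm_apply]
      rfl
    rw [h1, inner_sum]
    refine Finset.sum_congr rfl fun i _ => ?_
    rw [inner_smul_right]
    rfl
  ext y
  constructor
  · intro hy x' hx'
    have h2 := hy (frame p b x') hx'
    rw [key] at h2
    exact h2
  · intro hy x hx
    obtain ⟨h, hh⟩ := frame_homeo p b
    obtain ⟨x', rfl⟩ := h.surjective x
    rw [hh] at hx ⊢
    rw [key]
    exact hy x' hx

theorem ofLp_frame (p : EuclideanSpace ℝ (Fin n))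
    (b : Module.Basis (Fin n) ℝ (EuclideanSpace ℝ (Fin n))) (u : Fin n → ℝ) :
    WithLp.ofLp (frame p b u) = WithLp.ofLp p + (fmat b).mulVec u := by
  unfold frame
  ext i
  rw [Module.Basis.equivFun_symm_apply]
  simp only [WithLp.ofLp_add, WithLp.ofLp_sum, WithLp.ofLp_smul, Pi.add_apply, Finset.sum_apply,
    Pi.smul_apply, smul_eq_mul, Matrix.mulVec, dotProduct, fmat]
  congr 1
  exact Finset.sum_congr rfl fun j _ => mul_comm _ _

theorem coframe_eq (b : Module.Basis (Fin n) ℝ (EuclideanSpace ℝ (Fin n)))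
    (y : EuclideanSpace ℝ (Fin n)) :
    coframe b y = (fmat b).transpose.mulVec (WithLp.ofLp y) := by
  ext i
  simp only [coframe, Matrix.mulVec, dotProduct, fmat, Matrix.transpose_apply]
  rw [PiLp.inner_apply]
  refine Finset.sum_congr rfl fun j _ => ?_
  simp

theorem fmat_det_ne (b : Module.Basis (Fin n) ℝ (EuclideanSpace ℝ (Fin n))) :
    (fmat b).det ≠ 0 := by
  intro h
  obtain ⟨v, hv, hv2⟩ := Matrix.exists_mulVec_eq_zero_iff.mpr h
  have h1 : frame 0 b v = 0 := by
    have := ofLp_frame 0 b v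
    rw [hv2] at this
    simp only [WithLp.ofLp_zero, add_zero] at this
    exact (WithLp.ofLp_injective 2) this
  unfold frame at h1
  rw [zero_add] at h1
  exact hv ((LinearEquiv.map_eq_zero_iff _).mp h1)

theorem volume_frame_preimage (p : EuclideanSpace ℝ (Fin n))
    (b : Module.Basis (Fin n) ℝ (EuclideanSpace ℝ (Fin n))) (K : Set (EuclideanSpace ℝ (Fin n))) :
    volume (frame p b ⁻¹' K) = ENNReal.ofReal |((fmat b).det)⁻¹| * volume K := by
  have h1 : frame p b ⁻¹' K = (Matrix.toLin' (fmat b)) ⁻¹'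
      ((fun v => WithLp.ofLp p + v) ⁻¹' ((WithLp.toLp 2) ⁻¹' K)) := by
    ext u
    simp only [mem_preimage, Matrix.toLin'_apply, ← ofLp_frame]
  have hdet : LinearMap.det (Matrix.toLin' (fmat b)) ≠ 0 := by
    rw [LinearMap.det_toLin']; exact fmat_det_ne b
  rw [h1, Measure.addHaar_preimage_linearMap volume hdet, LinearMap.det_toLin',
    measure_preimage_add]
  congr 1
  exact (EuclideanSpace.volume_preserving_symm_measurableEquiv_toLp
    (Fin n)).symm.measure_preimage_equiv K

theorem volume_coframe_preimage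
    (b : Module.Basis (Fin n) ℝ (EuclideanSpace ℝ (Fin n))) (L : Set (Fin n → ℝ)) :
    volume (coframe b ⁻¹' L) = ENNReal.ofReal |((fmat b).det)⁻¹| * volume L := by
  have h1 : coframe b ⁻¹' L = WithLp.ofLp ⁻¹'
      ((Matrix.toLin' (fmat b).transpose) ⁻¹' L) := by
    ext u
    simp only [mem_preimage, Matrix.toLin'_apply, coframe_eq]
  have hdet : LinearMap.det (Matrix.toLin' (fmat b).transpose) ≠ 0 := by
    rw [LinearMap.det_toLin', Matrix.det_transpose]; exact fmat_det_ne b
  rw [h1]
  rw [show volume (WithLp.ofLp ⁻¹' ((Matrix.toLin' (fmat b).transpose) ⁻¹' L) :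
      Set (EuclideanSpace ℝ (Fin n))) = volume ((Matrix.toLin' (fmat b).transpose) ⁻¹' L) from
    (EuclideanSpace.volume_preserving_symm_measurableEquiv_toLp
      (Fin n)).measure_preimage_equiv _]
  rw [Measure.addHaar_preimage_linearMap volume hdet, LinearMap.det_toLin', Matrix.det_transpose]

/-- The volume product is computed in coordinates. -/
theorem volume_mul_frame (p : EuclideanSpace ℝ (Fin n))
    (b : Module.Basis (Fin n) ℝ (EuclideanSpace ℝ (Fin n))) (K : Set (EuclideanSpace ℝ (Fin n)))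
    (u : Fin n → ℝ) :
    volume K * volume (polarAt K (frame p b u)) =
      volume (frame p b ⁻¹' K) * volume (polarP (frame p b ⁻¹' K) u) := by
  rw [polarAt_frame, volume_coframe_preimage, volume_frame_preimage]
  ring

theorem frame_preimage_interior (p : EuclideanSpace ℝ (Fin n))
    (b : Module.Basis (Fin n) ℝ (EuclideanSpace ℝ (Fin n))) (K : Set (EuclideanSpace ℝ (Fin n))) :
    interior (frame p b ⁻¹' K) = frame p b ⁻¹' (interior K) := by
  obtain ⟨h, hh⟩ := frame_homeo p b
  have : frame p b = h := funext fun u => (hh u).symm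
  rw [this]
  exact (h.preimage_interior K).symm

theorem frame_affine (p : EuclideanSpace ℝ (Fin n))
    (b : Module.Basis (Fin n) ℝ (EuclideanSpace ℝ (Fin n))) (u v : Fin n → ℝ) {s t : ℝ}
    (hst : s + t = 1) :
    frame p b (s • u + t • v) = s • frame p b u + t • frame p b v := by
  unfold frame
  rw [map_add, map_smul, map_smul, smul_add, smul_add]
  have : p = s • p + t • p := by rw [← add_smul, hst, one_smul]
  nth_rewrite 1 [this]
  abel

/-- The volume product, in coordinates. -/
theorem volumeProduct_frame (p : EuclideanSpace ℝ (Fin n))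
    (b : Module.Basis (Fin n) ℝ (EuclideanSpace ℝ (Fin n))) (K : Set (EuclideanSpace ℝ (Fin n))) :
    volumeProduct K = ⨅ u ∈ interior (frame p b ⁻¹' K),
      volume (frame p b ⁻¹' K) * volume (polarP (frame p b ⁻¹' K) u) := by
  unfold volumeProduct
  rw [frame_preimage_interior]
  apply le_antisymm
  · refine le_iInf₂ fun u hu => ?_
    rw [← volume_mul_frame]
    exact iInf₂_le (frame p b u) hu
  · refine le_iInf₂ fun z hz => ?_
    obtain ⟨h, hh⟩ := frame_homeo p b
    obtain ⟨u, rfl⟩ := h.surjective z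
    rw [hh] at hz ⊢
    rw [volume_mul_frame]
    exact iInf₂_le u hz

end

open scoped Matrix

/-- Explicit convex combinations. -/
theorem mem_hull_fintype {ι E : Type*} [Fintype ι] [AddCommGroup E] [Module ℝ E] {p : ι → E}
    {x : E} : x ∈ convexHull ℝ (range p) ↔
    ∃ w : ι → ℝ, (∀ i, 0 ≤ w i) ∧ ∑ i, w i = 1 ∧ ∑ i, w i • p i = x := by
  classical
  constructor
  · intro hx
    have h1 : convexHull ℝ (range p) ⊆
        {x | ∃ w : ι → ℝ, (∀ i, 0 ≤ w i) ∧ ∑ i, w i = 1 ∧ ∑ i, w i • p i = x} := by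
      refine convexHull_min ?_ ?_
      · rintro _ ⟨i, rfl⟩
        refine ⟨Pi.single i 1, fun j => ?_, by simp only [Finset.sum_pi_single', Finset.mem_univ, ↓reduceIte], ?_⟩
        · by_cases h : j = i
          · subst h; simp only [Pi.single_eq_same, zero_le_one]
          · simp [h]
        · rw [Finset.sum_eq_single i]
          · simp
          · intro j _ hj; simp [hj]
          · simp only [Finset.mem_univ, not_true_eq_false, Pi.single_eq_same, one_smul, IsEmpty.forall_iff]
      · rintro _ ⟨w, hw0, hw1, rfl⟩ _ ⟨v, hv0, hv1, rfl⟩ s t hs ht hst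
        refine ⟨fun i => s * w i + t * v i, fun i => ?_, ?_, ?_⟩
        · have := hw0 i; have := hv0 i; (clear p x hx hw1 hv1 hst; positivity)
        · rw [Finset.sum_add_distrib, ← Finset.mul_sum, ← Finset.mul_sum, hw1, hv1]; linarith only [hst]
        · rw [Finset.smul_sum, Finset.smul_sum, ← Finset.sum_add_distrib]
          refine Finset.sum_congr rfl fun i _ => ?_
          rw [add_smul, mul_smul, mul_smul]
    exact h1 hx
  · rintro ⟨w, hw0, hw1, rfl⟩
    exact (convex_convexHull ℝ _).sum_mem (fun i _ => hw0 i) hw1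
      fun i _ => subset_convexHull ℝ _ ⟨i, rfl⟩

variable {n : ℕ}

/-- the matrix of the map `y ↦ (∑ y / (n + 1)) 1 - y` -/
noncomputable def cenM (n : ℕ) : Matrix (Fin n) (Fin n) ℝ :=
  fun i j => 1 / ((n : ℝ) + 1) - if i = j then 1 else 0

theorem cenM_det (n : ℕ) : |(cenM n).det| = 1 / ((n : ℝ) + 1) := by
  have h1 : cenM n = -(1 + Matrix.replicateCol Unit (fun _ : Fin n => -(1 / ((n : ℝ) + 1))) *
      Matrix.replicateRow Unit (fun _ : Fin n => (1 : ℝ))) := by
    ext i j
    rw [Matrix.neg_apply, Matrix.add_apply, Matrix.mul_apply]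
    simp only [cenM, Matrix.one_apply, Matrix.replicateCol_apply, Matrix.replicateRow_apply,
      Finset.univ_unique, Finset.sum_singleton, mul_one]
    ring
  rw [h1, Matrix.det_neg, Matrix.det_one_add_replicateCol_mul_replicateRow, abs_mul, abs_pow]
  simp only [abs_neg, abs_one, Fintype.card_fin, one_pow, dotProduct, one_mul, Finset.sum_const, Finset.card_univ, nsmul_eq_mul]
  have h2 : (0 : ℝ) < (n : ℝ) + 1 := by positivity
  have h3 : 1 + (n : ℝ) * -(1 / ((n : ℝ) + 1)) = 1 / ((n : ℝ) + 1) := by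
    field_simp
    ring
  rw [h3, abs_of_pos (by positivity)]

theorem cenM_mulVec (n : ℕ) (y : Fin n → ℝ) (i : Fin n) :
    (cenM n *ᵥ y) i = (∑ j, y j) / ((n : ℝ) + 1) - y i := by
  simp only [Matrix.mulVec, dotProduct, cenM, sub_mul, Finset.sum_sub_distrib]
  rw [← Finset.mul_sum]
  congr 1
  · ring
  · rw [Finset.sum_eq_single i]
    · simp
    · intro j _ hj
      simp [Ne.symm hj]
    · simp only [Finset.mem_univ, not_true_eq_false, ↓reduceIte, one_mul, IsEmpty.forall_iff]

/-- the centroid of the standard simplex -/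
noncomputable def cen (n : ℕ) : Fin n → ℝ := fun _ => 1 / ((n : ℝ) + 1)

theorem polarP_stdS_subset (n : ℕ) :
    polarP (stdS (Fin n)) (cen n) ⊆
      (Matrix.toLin' (cenM n)) ⁻¹' ((fun t : Fin n → ℝ => (fun _ => (1 : ℝ)) + t) ⁻¹'
        simpA (fun _ : Fin n => (n : ℝ) + 1)) := by
  intro y hy
  have hn : (0 : ℝ) < (n : ℝ) + 1 := by positivity
  set s := (∑ j, y j) / ((n : ℝ) + 1) with hs
  have hsum : ∑ j, y j = s * ((n : ℝ) + 1) := by rw [hs]; field_simp
  have h0 : -s ≤ 1 := by
    have h := hy 0 ⟨fun _ => le_rfl, by simp only [Pi.zero_apply, Finset.sum_const_zero, zero_le_one]⟩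
    have e : ∑ i, ((0 : Fin n → ℝ) i - cen n i) * y i = -s := by
      rw [hs]
      simp only [cen, Pi.zero_apply, zero_sub, neg_mul, Finset.sum_neg_distrib]
      rw [← Finset.mul_sum]
      ring
    rwa [e] at h
  have hi : ∀ i, y i - s ≤ 1 := by
    intro i
    have h := hy (Pi.single i 1) ⟨fun j => by
      by_cases hj : j = i
      · subst hj; simp only [Pi.single_eq_same, zero_le_one]
      · simp [hj], by simp only [Finset.sum_pi_single', Finset.mem_univ, ↓reduceIte, Std.le_refl]⟩
    have e : ∑ j, ((Pi.single i (1 : ℝ) : Fin n → ℝ) j - cen n j) * y j = y i - s := by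
      rw [hs]
      simp only [cen, sub_mul, Finset.sum_sub_distrib]
      rw [← Finset.mul_sum]
      congr 1
      · rw [Finset.sum_eq_single i]
        · simp
        · intro j _ hj
          simp [hj]
        · simp only [Finset.mem_univ, not_true_eq_false, Pi.single_eq_same, one_mul, IsEmpty.forall_iff]
      · ring
    rwa [e] at h
  refine ⟨fun i => ?_, ?_⟩
  · have e : ((fun _ => (1 : ℝ)) + Matrix.toLin' (cenM n) y : Fin n → ℝ) i = 1 + s - y i := by
      rw [Matrix.toLin'_apply, Pi.add_apply, cenM_mulVec, ← hs]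
      ring
    show 0 ≤ ((fun _ => (1 : ℝ)) + Matrix.toLin' (cenM n) y : Fin n → ℝ) i
    rw [e]
    have := hi i
    linarith only [this]
  · have e : ∀ i, ((fun _ => (1 : ℝ)) + Matrix.toLin' (cenM n) y : Fin n → ℝ) i =
        1 + s - y i := by
      intro i
      rw [Matrix.toLin'_apply, Pi.add_apply, cenM_mulVec, ← hs]
      ring
    show ∑ i, ((fun _ => (1 : ℝ)) + Matrix.toLin' (cenM n) y : Fin n → ℝ) i /
      ((n : ℝ) + 1) ≤ 1
    rw [← Finset.sum_div]
    simp only [e, Finset.sum_sub_distrib, Finset.sum_const, Finset.card_univ,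
      Fintype.card_fin, nsmul_eq_mul]
    rw [hsum, div_le_one hn]
    linarith

theorem volume_polarP_stdS_le (n : ℕ) :
    volume (polarP (stdS (Fin n)) (cen n)) ≤
      ENNReal.ofReal (((n : ℝ) + 1) ^ (n + 1) / n.factorial) := by
  refine (measure_mono (polarP_stdS_subset n)).trans ?_
  have hn : (0 : ℝ) < (n : ℝ) + 1 := by positivity
  have hdet0 : LinearMap.det (Matrix.toLin' (cenM n)) ≠ 0 := by
    rw [LinearMap.det_toLin']
    intro h
    have := cenM_det n
    rw [h, abs_zero] at this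
    have h2 : (0 : ℝ) < 1 / ((n : ℝ) + 1) := by (clear * -; positivity)
    linarith only [this, h2]
  rw [Measure.addHaar_preimage_linearMap volume hdet0, LinearMap.det_toLin', measure_preimage_add,
    volume_simpA (fun _ => hn)]
  refine (mul_le_mul' le_rfl (mul_le_mul' le_rfl volume_stdS_le)).trans ?_
  rw [abs_inv, cenM_det,
    ← ENNReal.ofReal_mul (Finset.prod_nonneg fun _ _ => hn.le), ← ENNReal.ofReal_mul (by (clear * -; positivity))]
  apply ENNReal.ofReal_le_ofReal
  rw [Finset.prod_const, Finset.card_univ, Fintype.card_fin]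
  have hf : (0 : ℝ) < n.factorial := by positivity
  rw [one_div, inv_inv, pow_succ]
  apply le_of_eq
  ring

theorem cen_mem_interior (n : ℕ) : cen n ∈ interior (stdS (Fin n)) := by
  have hn : (0 : ℝ) < (n : ℝ) + 1 := by positivity
  have hopen : IsOpen {x : Fin n → ℝ | (∀ i, 0 < x i) ∧ ∑ i, x i < 1} := by
    have h1 : {x : Fin n → ℝ | (∀ i, 0 < x i) ∧ ∑ i, x i < 1} =
        (⋂ i, {x : Fin n → ℝ | 0 < x i}) ∩ {x : Fin n → ℝ | ∑ i, x i < 1} := by
      ext x; simp only [mem_ofPred_eq, mem_inter_iff, mem_iInter]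
    rw [h1]
    refine (isOpen_iInter_of_finite fun i => ?_).inter ?_
    · exact isOpen_lt continuous_const (continuous_apply i)
    · exact isOpen_lt (by fun_prop) continuous_const
  have hsub : {x : Fin n → ℝ | (∀ i, 0 < x i) ∧ ∑ i, x i < 1} ⊆ stdS (Fin n) :=
    fun x hx => ⟨fun i => (hx.1 i).le, hx.2.le⟩
  refine interior_maximal hsub hopen ⟨fun i => ?_, ?_⟩
  · simp only [cen]; (clear * -; positivity)
  · simp only [cen, Finset.sum_const, Finset.card_univ, Fintype.card_fin, nsmul_eq_mul]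
    rw [mul_one_div, div_lt_one hn]
    linarith only []

/-- A simplex is a standard simplex in a suitable frame. -/
theorem IsSimplex.exists_frame {K : Set (EuclideanSpace ℝ (Fin n))} (h : IsSimplex K) :
    ∃ (p : EuclideanSpace ℝ (Fin n)) (b : Module.Basis (Fin n) ℝ (EuclideanSpace ℝ (Fin n))),
      frame p b ⁻¹' K = stdS (Fin n) := by
  obtain ⟨v, hv, rfl⟩ := h
  have hlin := (affineIndependent_iff_linearIndependent_vsub ℝ v 0).mp hv
  have hlin2 : LinearIndependent ℝ (fun i : Fin n => v i.succ - v 0) := by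
    have h := hlin.comp (fun k : Fin n => (⟨k.succ, Fin.succ_ne_zero k⟩ : {x : Fin (n + 1) // x ≠ 0}))
      (fun a b hab => by simpa using hab)
    exact h
  let b : Module.Basis (Fin n) ℝ (EuclideanSpace ℝ (Fin n)) :=
    Module.Basis.mk hlin2 (hlin2.span_eq_top_of_card_eq_finrank' (by simp only [Fintype.card_fin, finrank_euclideanSpace])).ge
  have hb : ∀ i, b i = v i.succ - v 0 := fun i => by
    rw [Module.Basis.mk_apply]
  refine ⟨v 0, b, ?_⟩
  have hfr : ∀ u : Fin n → ℝ, frame (v 0) b u = (1 - ∑ i, u i) • v 0 + ∑ i, u i • v i.succ := by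
    intro u
    unfold frame
    rw [Module.Basis.equivFun_symm_apply]
    simp only [hb, smul_sub, Finset.sum_sub_distrib, ← Finset.sum_smul, sub_smul, one_smul]
    abel
  ext u
  rw [mem_preimage, mem_hull_fintype]
  constructor
  · rintro ⟨w, h1, h2, h3⟩
    rw [Fin.sum_univ_succ] at h2 h3
    have h4 : frame (v 0) b u = frame (v 0) b (fun i => w i.succ) := by
      rw [← h3, hfr]
      have : w 0 = 1 - ∑ i : Fin n, w i.succ := by linarith only [h2]
      rw [← this]
    obtain ⟨hh, hhe⟩ := frame_homeo (v 0) b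
    have h5 : u = fun i => w i.succ := by
      apply hh.injective
      rw [hhe, hhe]
      exact h4
    rw [h5]
    refine ⟨fun i => h1 _, ?_⟩
    have := h1 0
    linarith only [h2, this]
  · rintro ⟨h1, h2⟩
    refine ⟨Fin.cases (1 - ∑ i, u i) u, fun i => ?_, ?_, ?_⟩
    · refine Fin.cases ?_ (fun i => ?_) i
      · simp only [Fin.cases_zero]; linarith
      · simp only [Fin.cases_succ]; exact h1 i
    · rw [Fin.sum_univ_succ]
      simp only [Fin.cases_zero, Fin.cases_succ, sub_add_cancel]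
    · rw [Fin.sum_univ_succ, hfr]
      simp only [Fin.cases_zero, Fin.cases_succ]

/-- **the volume product of a simplex**, upper bound -/
theorem volumeProduct_le_of_isSimplex {K : Set (EuclideanSpace ℝ (Fin n))} (h : IsSimplex K) :
    volumeProduct K ≤ ENNReal.ofReal (((n : ℝ) + 1) ^ (n + 1) / (n.factorial : ℝ) ^ 2) := by
  obtain ⟨p, b, hb⟩ := IsSimplex.exists_frame h
  rw [volumeProduct_frame p b, hb]
  refine (iInf₂_le (cen n) (cen_mem_interior n)).trans ?_
  refine (mul_le_mul' le_rfl (volume_polarP_stdS_le n)).trans ?_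
  refine (mul_le_mul' volume_stdS_le le_rfl).trans ?_
  rw [← ENNReal.ofReal_mul (by positivity)]
  apply ENNReal.ofReal_le_ofReal
  rw [Fintype.card_fin]
  apply le_of_eq
  ring

end Vale.Agent.P248.H551.SV
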