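import Vale.Agent.P248.H551.EqCone
import Vale.Agent.P248.H551.SimpVal

/-!
P248 (helper551): the general Mahler conjecture in every dimension, with its equality case, from the
sharp determinant inequality for cones and its equality case.
-/

open MeasureTheory Set Matrix Filter Topology Metric

namespace Vale.Agent.P248.H551

open Vale.Agent.P248.NS
open Vale.Agent.P254.R304 (covF limDens cone)

variable {n : ℕ}

/-- the conjectured value -/
noncomputable def cn (n : ℕ) : ℝ := ((n : ℝ) + 1) ^ (n + 1) / (n.factorial : ℝ) ^ 2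

lemma cn_pos (n : ℕ) : 0 < cn n := by unfold cn; positivity

lemma dot_cons_one (z : Fin n → ℝ) :
    (Fin.cons 1 z : Fin (n + 1) → ℝ) ⬝ᵥ (Fin.cons 1 0 : Fin (n + 1) → ℝ) = 1 := by
  unfold dotProduct
  rw [Fin.sum_univ_succ]
  simp

/-- the logarithmic functional of the cone over `K` in terms of volumes -/
lemma log_value {K : Set (Fin n → ℝ)} (hK : Vale.Agent.P254.IsConvexBody K) {z : Fin n → ℝ}
    (hz : z ∈ interior K) :
    Real.log (Z (cone K) (Fin.cons 1 0)) + (Real.log (Z (dual (cone K)) (Fin.cons 1 z)) +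
      ((n + 1 : ℕ) : ℝ) * Real.log ((Fin.cons 1 z : Fin (n + 1) → ℝ) ⬝ᵥ
        (Fin.cons 1 0 : Fin (n + 1) → ℝ))) =
    Real.log ((n.factorial : ℝ) ^ 2 * ((volume K).toReal * (volume (polarP K z)).toReal)) := by
  obtain ⟨h1, h2, h3, h4, h5⟩ := T9.stmtCone n K hK z hz
  have hZ1 := T2a.Z_pos h1 h2
  have hZ2 := T2a.Z_pos (T1.stmtDual _ _ h1).1 h3
  rw [dot_cons_one, Real.log_one, mul_zero, add_zero, ← Real.log_mul hZ1.ne' hZ2.ne', h4, h5]
  congr 1
  ring

lemma log_const (n : ℕ) :
    ((n + 1 : ℕ) : ℝ) * Real.log ((n + 1 : ℕ) : ℝ) = Real.log ((n.factorial : ℝ) ^ 2 * cn n) := by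
  have : (n.factorial : ℝ) ^ 2 * cn n = (((n + 1 : ℕ) : ℝ)) ^ (n + 1) := by
    unfold cn
    have : (n.factorial : ℝ) ≠ 0 := by positivity
    field_simp
    push_cast
    ring
  rw [this, Real.log_pow]

/-- the sharp inequality in coordinates -/
theorem body_ge (hS : Sharp) {K : Set (Fin n → ℝ)} (hK : Vale.Agent.P254.IsConvexBody K)
    {z : Fin n → ℝ} (hz : z ∈ interior K) :
    cn n ≤ (volume K).toReal * (volume (polarP K z)).toReal := by
  obtain ⟨h1, h2, h3, h4, h5⟩ := T9.stmtCone n K hK z hz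
  have h := main_log hS (Nat.succ_pos n) h1 h3 h2
  rw [add_assoc, log_value hK hz, log_const] at h
  have hZ1 := T2a.Z_pos h1 h2
  have hZ2 := T2a.Z_pos (T1.stmtDual _ _ h1).1 h3
  have hf : (0 : ℝ) < (n.factorial : ℝ) := by positivity
  rw [h4] at hZ1
  rw [h5] at hZ2
  have hv1 : 0 < (volume K).toReal := (mul_pos_iff_of_pos_left hf).1 hZ1
  have hv2 : 0 < (volume (polarP K z)).toReal := (mul_pos_iff_of_pos_left hf).1 hZ2
  have hc := cn_pos n
  rw [Real.log_le_log_iff (by positivity) (by positivity)] at h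
  exact le_of_mul_le_mul_left h (by positivity)

/-- the inequality of Q2 -/
theorem volumeProduct_ge (hS : Sharp) {K : Set (EuclideanSpace ℝ (Fin n))} (hK : IsConvexBody K) :
    ENNReal.ofReal (cn n) ≤ volumeProduct K :=
  T10.volumeProduct_ge (fun _ hK _ hz => body_ge hS hK hz) hK

/-- equality in coordinates -/
theorem simplex_of_inf (hS : Sharp) (hE : EqSharp) {K : Set (Fin n → ℝ)}
    (hK : Vale.Agent.P254.IsConvexBody K)
    (h : ∀ ε : ℝ, 0 < ε → ∃ z ∈ interior K,
      (volume K).toReal * (volume (polarP K z)).toReal ≤ cn n * Real.exp ε) :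
    ∃ v : Fin (n + 1) → (Fin n → ℝ), AffineIndependent ℝ v ∧ K = convexHull ℝ (range v) := by
  obtain ⟨z1, hz1⟩ := hK.2.2
  obtain ⟨h1, h2, h3, h4, h5⟩ := T9.stmtCone n K hK z1 hz1
  obtain ⟨x0, hx0, hmin⟩ := exists_min (Nat.succ_pos n) h1 h2
  have hge := main_log hS (Nat.succ_pos n) h1 hx0 h2
  have hle : Real.log (Z (cone K) (Fin.cons 1 0)) + Real.log (Z (dual (cone K)) x0) +
      ((n + 1 : ℕ) : ℝ) * Real.log (x0 ⬝ᵥ (Fin.cons 1 0 : Fin (n + 1) → ℝ)) ≤
      ((n + 1 : ℕ) : ℝ) * Real.log ((n + 1 : ℕ) : ℝ) := by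
    refine le_of_forall_pos_le_add fun ε hε => ?_
    obtain ⟨z, hz, hzv⟩ := h ε hε
    obtain ⟨k1, k2, k3, k4, k5⟩ := T9.stmtCone n K hK z hz
    have hm := hmin _ k3
    have hlv := log_value hK hz
    have hZ1 := T2a.Z_pos k1 k2
    have hZ2 := T2a.Z_pos (T1.stmtDual _ _ k1).1 k3
    have hf : (0 : ℝ) < (n.factorial : ℝ) := by positivity
    rw [k4] at hZ1
    rw [k5] at hZ2
    have hv1 : 0 < (volume K).toReal := (mul_pos_iff_of_pos_left hf).1 hZ1
    have hv2 : 0 < (volume (polarP K z)).toReal := (mul_pos_iff_of_pos_left hf).1 hZ2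
    have hc := cn_pos n
    have hlog : Real.log ((n.factorial : ℝ) ^ 2 * ((volume K).toReal *
        (volume (polarP K z)).toReal)) ≤ Real.log ((n.factorial : ℝ) ^ 2 * cn n) + ε := by
      rw [← Real.log_exp ε, ← Real.log_mul (by positivity) (Real.exp_pos _).ne']
      refine Real.log_le_log (by positivity) ?_
      rw [mul_assoc]
      exact mul_le_mul_of_nonneg_left hzv (by positivity)
    rw [log_const]
    linarith
  obtain ⟨y, hy, hdet⟩ := det_eq_of_attained hS (Nat.succ_pos n) h1 hx0 h2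
    (le_antisymm hle hge)
  obtain ⟨L, hL, hCL⟩ := hE _ _ h1 y hy hdet
  exact simplex_of_cone hK.1 hL hCL

/-- **Q2** in every dimension with its equality case, from the sharp inequality for cones -/
theorem full_of (hS : Sharp) (hE : EqSharp) {K : Set (EuclideanSpace ℝ (Fin n))}
    (hK : IsConvexBody K) :
    ENNReal.ofReal (((n : ℝ) + 1) ^ (n + 1) / (n.factorial : ℝ) ^ 2) ≤ volumeProduct K ∧
      (volumeProduct K = ENNReal.ofReal (((n : ℝ) + 1) ^ (n + 1) / (n.factorial : ℝ) ^ 2) ↔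
        IsSimplex K) := by
  have hge : ENNReal.ofReal (((n : ℝ) + 1) ^ (n + 1) / (n.factorial : ℝ) ^ 2) ≤ volumeProduct K :=
    volumeProduct_ge hS hK
  refine ⟨hge, fun heq => ?_, fun h => le_antisymm (SV.volumeProduct_le_of_isSimplex h) hge⟩
  set e : EuclideanSpace ℝ (Fin n) ≃L[ℝ] (Fin n → ℝ) := EuclideanSpace.equiv (Fin n) ℝ with he
  have hmp : MeasurePreserving (e : EuclideanSpace ℝ (Fin n) → (Fin n → ℝ)) :=
    PiLp.volume_preserving_ofLp (Fin n)
  have hme : MeasurableEmbedding (e : EuclideanSpace ℝ (Fin n) → (Fin n → ℝ)) :=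
    e.toHomeomorph.measurableEmbedding
  have hvol : ∀ S : Set (EuclideanSpace ℝ (Fin n)), volume (e '' S) = volume S := by
    intro S
    rw [← hmp.measure_preimage_emb hme, Set.preimage_image_eq _ e.injective]
  have hK' : Vale.Agent.P254.IsConvexBody (e '' K) := by
    refine ⟨?_, hK.1.image e.continuous, ?_⟩
    · exact hK.2.1.linear_image e.toLinearMap
    · have h3 := e.toHomeomorph.image_interior K
      have h4 : (e.toHomeomorph '' interior K).Nonempty := hK.2.2.image _
      rw [h3] at h4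
      exact h4
  have hz' : ∀ z ∈ interior K, e z ∈ interior (e '' K) := by
    intro z hz
    have := e.toHomeomorph.image_interior K
    have h2 : e z ∈ e.toHomeomorph '' interior K := ⟨z, hz, rfl⟩
    rw [this] at h2
    exact h2
  have hpol : ∀ z, NS.polarP (e '' K) (e z) = e '' (Vale.Agent.P248.polarAt K z) := by
    intro z
    ext w
    constructor
    · intro hw
      refine ⟨e.symm w, fun x hx => ?_, by simp⟩
      have h5 : w ⬝ᵥ (e x - e z) ≤ 1 := hw (e x) ⟨x, hx, rfl⟩
      rw [EuclideanSpace.inner_eq_star_dotProduct]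
      change (e x - e z) ⬝ᵥ star w ≤ 1
      rw [star_trivial, dotProduct_comm]
      exact h5
    · rintro ⟨y, hy, rfl⟩ _ ⟨x, hx, rfl⟩
      have h5 := hy x hx
      rw [EuclideanSpace.inner_eq_star_dotProduct] at h5
      change (e x - e z) ⬝ᵥ star (e y) ≤ 1 at h5
      rw [star_trivial, dotProduct_comm] at h5
      exact h5
  obtain ⟨v, hv, hKv⟩ := simplex_of_inf hS hE hK' (by
    intro ε hε
    have hc := cn_pos n
    have hlt : volumeProduct K < ENNReal.ofReal (cn n * Real.exp ε) := by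
      rw [heq]
      refine (ENNReal.ofReal_lt_ofReal_iff (by positivity)).2 ?_
      have : 1 < Real.exp ε := Real.one_lt_exp_iff.2 hε
      change cn n < cn n * Real.exp ε
      exact lt_mul_of_one_lt_right hc this
    unfold volumeProduct at hlt
    rw [iInf_lt_iff] at hlt
    obtain ⟨z, hz⟩ := hlt
    rw [iInf_lt_iff] at hz
    obtain ⟨hzi, hz⟩ := hz
    refine ⟨e z, hz' z hzi, ?_⟩
    rw [hpol, hvol, hvol, ← ENNReal.toReal_mul]
    exact ENNReal.toReal_le_of_le_ofReal (by positivity) hz.le)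
  refine ⟨fun i => e.symm (v i), ?_, ?_⟩
  · have h1 : AffineIndependent ℝ (e.symm.toLinearEquiv.toAffineEquiv.toAffineMap ∘ v) :=
      hv.map' _ e.symm.injective
    exact h1
  · have h1 : K = e.symm '' (e '' K) := by
      rw [← image_comp]
      ext x
      simp
    rw [h1, hKv]
    have h2 := (e.symm.toLinearEquiv.toLinearMap).image_convexHull (range v)
    have h3 : (e.symm '' (convexHull ℝ (range v))) =
        (e.symm.toLinearEquiv.toLinearMap) '' (convexHull ℝ (range v)) := rfl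
    rw [h3, h2, ← range_comp]
    rfl

end Vale.Agent.P248.H551
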