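import Vale.Agent.P248.H551.FromNice

/-!
P254 (helper551), block B7: the strong isotropic constant conjecture with its equality case, from
the sharp determinant inequality for cones and its equality case.
-/

open MeasureTheory Set Matrix Filter Topology Metric

namespace Vale.Agent.P248.H551

open Vale.Agent.P248.NS
open Vale.Agent.P254.R304 (covF limDens cone coneDens)
open Vale.Agent.P254 (isoConst covMatrix)

variable {n : ℕ}

lemma neg_cons : -(Fin.cons 1 0 : Fin (n + 1) → ℝ) = Vale.Agent.P254.R304.mc n := by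
  funext i
  unfold Vale.Agent.P254.R304.mc
  refine Fin.cases ?_ (fun j => ?_) i
  · simp
  · simp

/-- the covariance matrix of the cone measure in the two notations -/
lemma covF_cone {K : Set (Fin n → ℝ)} (hK : Vale.Agent.P254.IsConvexBody K) :
    Vale.Agent.P254.K468.covF (Vale.Agent.P254.K468.coneF K) = cov (cone K) (Fin.cons 1 0) := by
  obtain ⟨a, ha, hdec⟩ := Vale.Agent.P254.R304.cone_decay hK.2.1
  have hg : Vale.Agent.P254.R304.Good (coneDens K) (Real.exp 0) a := by
    rw [Vale.Agent.P254.R304.coneDens_eq]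
    exact Vale.Agent.P254.R304.good_limDens Matrix.PosSemidef.zero
      (Vale.Agent.P254.R304.isClosed_cone hK.2.1)
      (Vale.Agent.P254.R304.cone_interior hK.2.2) ha hdec
  rw [Vale.Agent.P254.R304.covF_congr Vale.Agent.P254.R304.coneF_ae, hg.covF_eq]
  unfold cov
  rw [neg_cons, ← Vale.Agent.P254.R304.coneDens_eq]

/-- the strong isotropic constant inequality -/
theorem iso_le (hS : Sharp) (hn : 1 ≤ n) {K S : Set (Fin n → ℝ)}
    (hK : Vale.Agent.P254.IsConvexBody K) (hSi : Vale.Agent.P254.IsSimplex S) :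
    isoConst K ≤ isoConst S := by
  refine Vale.Agent.P254.K468.isoConst_le_of_cone hn hK hSi ?_
  have hV := Vale.Agent.P254.K468.volume_pos_of_body hK
  obtain ⟨z1, hz1⟩ := hK.2.2
  obtain ⟨h1, h2, h3, h4, h5⟩ := T9.stmtCone n K hK z1 hz1
  have h := hS _ _ h1 _ h2
  have hd := (T8.cov_posDef h1 h2).det_pos
  have hZ := T2a.Z_pos h1 h2
  rw [← Real.log_le_log_iff hd (by positivity), Real.log_pow] at h
  unfold Vale.Agent.P254.K468.DNonneg
  rw [Vale.Agent.P254.K468.ent_cone hK.2.1 hV, covF_cone hK, ← h4]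
  push_cast at h ⊢
  linarith

/-- equality forces a simplex -/
theorem simplex_of_iso_eq (hE : EqSharp) (hn : 1 ≤ n) {K S : Set (Fin n → ℝ)}
    (hK : Vale.Agent.P254.IsConvexBody K) (hSi : Vale.Agent.P254.IsSimplex S)
    (he : isoConst K = isoConst S) : Vale.Agent.P254.IsSimplex K := by
  obtain ⟨hd, h⟩ := Vale.Agent.P254.K468.D_eq_of_isoConst_eq hn hK hSi he
  have hV := Vale.Agent.P254.K468.volume_pos_of_body hK
  obtain ⟨z1, hz1⟩ := hK.2.2
  obtain ⟨h1, h2, h3, h4, h5⟩ := T9.stmtCone n K hK z1 hz1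
  have hdp := (T8.cov_posDef h1 h2).det_pos
  have hZ := T2a.Z_pos h1 h2
  rw [Vale.Agent.P254.K468.ent_cone hK.2.1 hV, covF_cone hK, ← h4] at h
  have h6 : Real.log (cov (cone K) (Fin.cons 1 0)).det =
      Real.log (Z (cone K) (Fin.cons 1 0) ^ 2) := by
    rw [Real.log_pow]
    push_cast at h ⊢
    linarith
  have h7 : (cov (cone K) (Fin.cons 1 0)).det = Z (cone K) (Fin.cons 1 0) ^ 2 := by
    have := congrArg Real.exp h6
    rwa [Real.exp_log hdp, Real.exp_log (by positivity)] at this
  obtain ⟨L, hL, hCL⟩ := hE _ _ h1 _ h2 h7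
  exact simplex_of_cone hK.1 hL hCL

/-- the full statement of P254 -/
theorem iso_full_of (hS : Sharp) (hE : EqSharp) (hn : 1 ≤ n) {K S : Set (Fin n → ℝ)}
    (hK : Vale.Agent.P254.IsConvexBody K) (hSi : Vale.Agent.P254.IsSimplex S) :
    isoConst K ≤ isoConst S ∧ (isoConst K = isoConst S ↔ Vale.Agent.P254.IsSimplex K) := by
  refine ⟨iso_le hS hn hK hSi, fun h => simplex_of_iso_eq hE hn hK hSi h, fun h => ?_⟩
  rw [Vale.Agent.P254.isoConst_simplex h, Vale.Agent.P254.isoConst_simplex hSi]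

end Vale.Agent.P248.H551
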