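import Vale.Agent.P248.H551.B4b
import Vale.Agent.P254.One.ToL

/-!
P248 / P254, equality case (helper551): asymptotics at `0` of the truncated Gaussian profile:
`p(x) ≤ 4^{1/3} (1 - (2-ε) x)` and `w(x) ≥ (1-ε) x` near `0`.
-/

namespace Vale.Agent.P248.H551

open MeasureTheory Set Filter Topology
open Vale.Agent.P254.One

/-- `(1 + x)(1 - v)` -/
noncomputable def uu (z : ℝ) : ℝ := (1 + xx z) * (1 - vv z)

noncomputable def EE (x v : ℝ) : ℝ :=
  (1 - v) * x ^ 2 / 2 + x * (3 / 2 - 2 * v - 2 * v ^ 2) - 2 * v ^ 2 - 2 * v ^ 3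

theorem uu_hd (z : ℝ) : HasDerivAt uu (mu z * ((1 + xx z) * EE (xx z) (vv z))) z := by
  have h := ((xx_hd z).const_add 1).mul ((vv_hd z).const_sub 1)
  refine h.congr_deriv ?_
  rw [qq_eq z]
  unfold EE
  ring

theorem EE_le {x v ε : ℝ} (hx : 0 < x) (hv : 0 ≤ v) (hε : 0 < ε) (hv1 : 1 - ε / 24 ≤ v)
    (hv2 : v ≤ 1) (hu : (1 + x) * (1 - v) ≤ 5 - ε) : EE x v ≤ -(ε / 4) * x := by
  unfold EE
  have h1 : (1 - v) * x ≤ 5 - ε := by nlinarith
  have h2 : (1 - v) * x ^ 2 / 2 ≤ (5 - ε) * x / 2 := by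
    have : (1 - v) * x * x ≤ (5 - ε) * x := mul_le_mul_of_nonneg_right h1 hx.le
    nlinarith
  have h3 : 3 / 2 - 2 * v - 2 * v ^ 2 ≤ 3 / 2 - 4 + ε / 4 := by nlinarith
  have h4 : x * (3 / 2 - 2 * v - 2 * v ^ 2) ≤ x * (3 / 2 - 4 + ε / 4) :=
    mul_le_mul_of_nonneg_left h3 hx.le
  have h5 : 0 ≤ v ^ 2 := sq_nonneg v
  have h6 : 0 ≤ v ^ 3 := pow_nonneg hv 3
  linarith

theorem uu_ge {ε : ℝ} (hε : 0 < ε) : ∀ᶠ z in atTop, 5 - ε ≤ uu z := by
  have h1 : ∀ᶠ z in atTop, 1 - ε / 24 ≤ vv z := by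
    have := vv_tendsto.eventually (lt_mem_nhds (show 1 - ε / 24 < 1 by linarith))
    exact this.mono fun z hz => hz.le
  obtain ⟨z1, hz1⟩ := eventually_atTop.1 h1
  filter_upwards [eventually_ge_atTop z1] with z0 hz0
  by_contra hcon
  rw [not_le] at hcon
  -- the trap
  have trap : ∀ z, z0 ≤ z → uu z ≤ 5 - ε := by
    intro z hz
    refine image_le_of_deriv_right_lt_deriv_boundary (f := uu)
      (f' := fun z => mu z * ((1 + xx z) * EE (xx z) (vv z))) (a := z0) (b := z)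
      (B := fun _ => 5 - ε) (B' := fun _ => 0) ?_ ?_ ?_ ?_ ?_ ⟨hz, le_rfl⟩
    · exact fun y _ => (uu_hd y).continuousAt.continuousWithinAt
    · exact fun y _ => (uu_hd y).hasDerivWithinAt
    · exact hcon.le
    · exact fun y => hasDerivAt_const y _
    · intro y hy hyu
      have hx := xx_pos y
      have h2 := EE_le hx (vv_pos y).le hε (hz1 y (hz0.trans hy.1)) (vv_lt_one y).le hyu.le
      have h3 : EE (xx y) (vv y) < 0 := lt_of_le_of_lt h2 (by nlinarith)
      have hm := mu_pos y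
      exact mul_neg_of_pos_of_neg hm (mul_neg_of_pos_of_neg (by linarith) h3)
  -- the monotone quantity
  have hanti : AntitoneOn (fun z => uu z + ε / 4 * xx z) (Ici z0) := by
    refine antitoneOn_of_deriv_nonpos (convex_Ici z0) ?_ ?_ ?_
    · exact fun y _ => ((uu_hd y).add ((xx_hd y).const_mul _)).continuousAt.continuousWithinAt
    · exact fun y _ =>
        ((uu_hd y).add ((xx_hd y).const_mul _)).differentiableAt.differentiableWithinAt
    · intro y hy
      rw [interior_Ici] at hy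
      have h5 : deriv (fun z => uu z + ε / 4 * xx z) y = _ :=
        ((uu_hd y).add ((xx_hd y).const_mul (ε / 4))).deriv
      rw [h5]
      have hx := xx_pos y
      have h2 := EE_le hx (vv_pos y).le hε (hz1 y (hz0.trans hy.le)) (vv_lt_one y).le (trap y hy.le)
      have hm := mu_pos y
      have e : mu y * ((1 + xx y) * EE (xx y) (vv y)) + ε / 4 * (mu y * (xx y * (1 + xx y))) =
          mu y * ((1 + xx y) * (EE (xx y) (vv y) + ε / 4 * xx y)) := by ring
      rw [e]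
      refine mul_nonpos_of_nonneg_of_nonpos hm.le
        (mul_nonpos_of_nonneg_of_nonpos (by linarith) (by linarith))
  -- contradiction
  have h6 := xx_tendsto.eventually_gt_atTop ((uu z0 + ε / 4 * xx z0) / (ε / 4))
  obtain ⟨z, hz⟩ := (h6.and (eventually_ge_atTop z0)).exists
  have h7 := hanti (mem_Ici.2 le_rfl : z0 ∈ Ici z0) (mem_Ici.2 hz.2 : z ∈ Ici z0) hz.2
  simp only at h7
  have h8 : 0 < uu z := by
    unfold uu
    have := xx_pos z
    have := vv_lt_one z
    exact mul_pos (by linarith) (by linarith)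
  have h9 := hz.1
  rw [div_lt_iff₀ (by positivity)] at h9
  linarith

/-- `lz ≥ 6 - ε` eventually -/
theorem lz_ge_six {ε : ℝ} (hε : 0 < ε) : ∀ᶠ z in atTop, 6 - ε ≤ lz z := by
  filter_upwards [uu_ge (half_pos hε)] with z hz
  rw [lz_eq]
  unfold uu at hz
  have h1 := vv_lt_one z
  have h2 := vv_pos z
  nlinarith

/-- MVT -/
theorem le_of_slope {f f' : ℝ → ℝ} {l s δ : ℝ} (hd : ∀ x ∈ Ioo (0 : ℝ) δ, HasDerivAt f (f' x) x)
    (hl : Tendsto f (𝓝[>] 0) (𝓝 l)) (hs : ∀ x ∈ Ioo (0 : ℝ) δ, f' x ≤ s) {x : ℝ}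
    (hx : x ∈ Ioo (0 : ℝ) δ) : f x ≤ l + s * x := by
  have h1 : Tendsto (fun y => f y + s * (x - y)) (𝓝[>] 0) (𝓝 (l + s * (x - 0))) := by
    refine hl.add ?_
    have : Continuous fun y : ℝ => s * (x - y) := by fun_prop
    exact (this.tendsto 0).mono_left nhdsWithin_le_nhds
  rw [sub_zero] at h1
  refine ge_of_tendsto h1 ?_
  have h2 : Ioo (0 : ℝ) x ∈ 𝓝[>] (0 : ℝ) := Ioo_mem_nhdsGT hx.1
  filter_upwards [h2] with y hy
  obtain ⟨ξ, hξ, he⟩ := exists_hasDerivAt_eq_slope f f' hy.2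
    (fun t ht => (hd t ⟨hy.1.trans_le ht.1, ht.2.trans_lt hx.2⟩).continuousAt.continuousWithinAt)
    (fun t ht => hd t ⟨hy.1.trans ht.1, ht.2.trans hx.2⟩)
  have h3 := hs ξ ⟨hy.1.trans hξ.1, hξ.2.trans hx.2⟩
  rw [he, div_le_iff₀ (by linarith [hy.2])] at h3
  linarith

theorem pf_prof0 : Prof0 oneProfile := by
  intro ε hε
  have hk := kap_pos
  -- `az lz / 3 ≥ kap (2 - ε)` near `0`
  have h1 : ∀ᶠ z in atTop, kap * (2 - ε) ≤ az z * lz z / 3 := by
    have e1 := az_tendsto.eventually (lt_mem_nhds (show kap * (1 - ε / 4) < (4 : ℝ) ^ (1 / 3 : ℝ) by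
      change kap * (1 - ε / 4) < kap
      nlinarith))
    filter_upwards [e1, lz_ge_six (show 0 < 3 * ε / 4 by positivity)] with z ha hl
    have ha0 := az_pos z
    have hl0 := lz_pos z
    rcases le_or_gt 2 ε with h | h
    · have : kap * (2 - ε) ≤ 0 := mul_nonpos_of_nonneg_of_nonpos hk.le (by linarith)
      have h5 : 0 < az z * lz z / 3 := by positivity
      linarith
    · have h2 : kap * (1 - ε / 4) * (6 - 3 * ε / 4) ≤ az z * lz z := by
        refine mul_le_mul ha.le hl (by linarith) ha0.le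
      have h3 : kap * (2 - ε) * 3 ≤ kap * (1 - ε / 4) * (6 - 3 * ε / 4) := by
        have : (2 - ε) * 3 ≤ (1 - ε / 4) * (6 - 3 * ε / 4) := by nlinarith
        calc kap * (2 - ε) * 3 = kap * ((2 - ε) * 3) := by ring
          _ ≤ kap * ((1 - ε / 4) * (6 - 3 * ε / 4)) := mul_le_mul_of_nonneg_left this hk.le
          _ = _ := by ring
      linarith
  have h2 := ze_tendsto_top.eventually h1
  rw [eventually_nhdsWithin_iff, Metric.eventually_nhds_iff] at h2
  obtain ⟨δ, hδ, h2⟩ := h2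
  refine ⟨min δ 1, lt_min hδ one_pos, min_le_right _ _, fun x hx => ?_⟩
  have hmem : ∀ y ∈ Ioo (0 : ℝ) (min δ 1), y ∈ Ioo (0 : ℝ) 1 := fun y hy =>
    ⟨hy.1, hy.2.trans_le (min_le_right _ _)⟩
  have h3 := le_of_slope (f := pf) (f' := pf1) (l := kap) (s := -(kap * (2 - ε))) (δ := min δ 1)
    (fun y hy => pf_hd (hmem y hy)) pf_tendsto_zero (fun y hy => ?_) hx
  · have e : kap * (1 - (2 - ε) * x) = kap + -(kap * (2 - ε)) * x := by ring
    rw [e]
    exact h3
  · have hy1 := hmem y hy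
    have h4 := @h2 y (by
      rw [Real.dist_eq, sub_zero, abs_of_pos hy.1]
      exact hy.2.trans_le (min_le_left _ _)) hy.1
    unfold pf1
    rw [neg_le_neg_iff]
    have h5 : 0 < 1 - y := by linarith [hy1.2]
    rw [le_div_iff₀ h5]
    rcases le_or_gt (kap * (2 - ε)) 0 with h | h
    · have h6 : 0 < az (ze y) * lz (ze y) / 3 := by
        have := az_pos (ze y)
        have := lz_pos (ze y)
        positivity
      exact (mul_nonpos_of_nonpos_of_nonneg h h5.le).trans h6.le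
    · refine le_trans ?_ h4
      nlinarith [hy.1]

theorem wf_w0 : W0 oneW := by
  intro ε hε
  have h1 : ∀ᶠ z in atTop, 1 - ε ≤ vv z := by
    have := vv_tendsto.eventually (lt_mem_nhds (show 1 - ε < 1 by linarith))
    exact this.mono fun z hz => hz.le
  have h2 := ze_tendsto_top.eventually h1
  rw [eventually_nhdsWithin_iff, Metric.eventually_nhds_iff] at h2
  obtain ⟨δ, hδ, h2⟩ := h2
  refine ⟨min δ 1, lt_min hδ one_pos, min_le_right _ _, fun x hx => ?_⟩
  have hmem : ∀ y ∈ Ioo (0 : ℝ) (min δ 1), y ∈ Ioo (0 : ℝ) 1 := fun y hy =>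
    ⟨hy.1, hy.2.trans_le (min_le_right _ _)⟩
  have h3 := le_of_slope (f := fun y => -wf y) (f' := fun y => -wf1 y) (l := -0) (s := -(1 - ε))
    (δ := min δ 1) (fun y hy => (wf_hd (hmem y hy)).neg) wf_tendsto_zero.neg (fun y hy => ?_) hx
  · have e : oneW.w x = wf x := rfl
    rw [e]
    linarith
  · have h4 := @h2 y (by
      rw [Real.dist_eq, sub_zero, abs_of_pos hy.1]
      exact hy.2.trans_le (min_le_left _ _)) hy.1
    change -vv (ze y) ≤ -(1 - ε)
    linarith

end Vale.Agent.P248.H551
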